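import Vale.Agent.P078.Tr.Cov.Word

/-! The trace on the closed algebra generated by the maps `b ↦ E (z b z*)` on `L²(A)`. -/

open Filter Topology
open scoped ComplexOrder InnerProductSpace

noncomputable section

namespace Vale.Agent.P078.Tr

universe u

variable {H : Type u} [NormedAddCommGroup H] [InnerProductSpace ℂ H] [CompleteSpace H]
  {S : Tracial H}

attribute [local instance] InnerProductSpace.complexToReal

namespace Tracial

open ContinuousLinearMap (adjoint)

lemma adj_adj (T : S.LOp) : adjoint (adjoint T) = T := ContinuousLinearMap.adjoint_adjoint T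

lemma adj_mul (A B : S.LOp) : adjoint (A * B) = adjoint B * adjoint A :=
  ContinuousLinearMap.adjoint_comp A B

lemma adj_one : adjoint (1 : S.LOp) = 1 := ContinuousLinearMap.adjoint_id

lemma adj_add (A B : S.LOp) : adjoint (A + B) = adjoint A + adjoint B := map_add _ A B

lemma adj_sub (A B : S.LOp) : adjoint (A - B) = adjoint A - adjoint B := map_sub _ A B

lemma adj_smul (c : ℝ) (A : S.LOp) : adjoint (c • A) = c • adjoint A := map_smul _ c A

lemma adj_sum {ι : Type*} (s : Finset ι) (f : ι → S.LOp) :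
    adjoint (∑ i ∈ s, f i) = ∑ i ∈ s, adjoint (f i) := map_sum _ f s

lemma norm_adj (A : S.LOp) : ‖adjoint A‖ = ‖A‖ := LinearIsometryEquiv.norm_map _ A

/-- `∑ ⟪T p, T' p⟫` over the pieces `p`. -/
def pairing (T T' : S.LOp) (P : Part S) : ℝ := ∑ i, ⟪T (cell P i), T' (cell P i)⟫_ℝ

/-- The values of an operator at the pieces. -/
def vals (T : S.LOp) (P : Part S) : PiLp 2 (fun _ : Fin P.n => S.L2) :=
  WithLp.toLp 2 fun i => T (cell P i)

lemma inner_vals (T T' : S.LOp) (P : Part S) :
    ⟪vals T P, vals T' P⟫_ℝ = pairing T T' P := PiLp.inner_apply _ _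

lemma normSq_vals (T : S.LOp) (P : Part S) : ‖vals T P‖ ^ 2 = sq T P := by
  rw [← real_inner_self_eq_norm_sq, inner_vals]
  exact Finset.sum_congr rfl fun i _ => real_inner_self_eq_norm_sq _

lemma vals_sub (T T' : S.LOp) (P : Part S) : vals (T - T') P = vals T P - vals T' P := rfl

lemma vals_add (T T' : S.LOp) (P : Part S) : vals (T + T') P = vals T P + vals T' P := rfl

lemma vals_smul (c : ℝ) (T : S.LOp) (P : Part S) : vals (c • T) P = c • vals T P := rfl

lemma pairing_self (T : S.LOp) (P : Part S) : pairing T T P = sq T P := by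
  rw [← inner_vals, real_inner_self_eq_norm_sq, normSq_vals]

lemma sq_add_le (T T' : S.LOp) (P : Part S) : sq (T + T') P ≤ 2 * sq T P + 2 * sq T' P := by
  rw [← normSq_vals, ← normSq_vals, ← normSq_vals, vals_add]
  nlinarith [norm_add_le (vals T P) (vals T' P), norm_nonneg (vals T P + vals T' P),
    sq_nonneg (‖vals T P‖ - ‖vals T' P‖)]

lemma sq_smul (c : ℝ) (T : S.LOp) (P : Part S) : sq (c • T) P = c ^ 2 * sq T P := by
  rw [← normSq_vals, ← normSq_vals, vals_smul, norm_smul, mul_pow, Real.norm_eq_abs, sq_abs]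

lemma sum_normSq_cell (P : Part S) : ∑ i, ‖cell P i‖ ^ 2 = 1 := by
  simp only [cell, normSq_emb, P.mul_self, ← S.tr_sum, P.sum_eq, tr_one]

lemma sq_le_norm (T : S.LOp) (P : Part S) : sq T P ≤ ‖T‖ ^ 2 := by
  calc sq T P ≤ ∑ i, ‖T‖ ^ 2 * ‖cell P i‖ ^ 2 := Finset.sum_le_sum fun i _ => by
        rw [← mul_pow]; exact pow_le_pow_left₀ (norm_nonneg _) (T.le_opNorm _) 2
    _ = ‖T‖ ^ 2 := by rw [← Finset.mul_sum, sum_normSq_cell, mul_one]

lemma sq_mul_le (A T : S.LOp) (P : Part S) : sq (A * T) P ≤ ‖A‖ ^ 2 * sq T P := by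
  rw [sq, sq, Finset.mul_sum]
  refine Finset.sum_le_sum fun i _ => ?_
  rw [← mul_pow]
  exact pow_le_pow_left₀ (norm_nonneg _) (A.le_opNorm _) 2

/-- A single signed sum of elementary maps. -/
structure Signed (S : Tracial H) where
  n : ℕ
  m : ℕ
  pp : Fin n → S.M
  nn : Fin m → S.M

/-- The operator of a signed sum. -/
def Signed.op (hB : Basics S) (K : Signed S) : S.LOp := pos K.pp hB - pos K.nn hB

/-- The transpose of a signed sum. -/
def Signed.tp (K : Signed S) : Signed S :=
  ⟨K.n, K.m, fun l => star (K.pp l), fun l => star (K.nn l)⟩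

lemma adjoint_pos (hB : Basics S) {n : ℕ} (z : Fin n → S.M) :
    adjoint (pos z hB) = pos (fun l => star (z l)) hB := by
  simp only [pos, adj_sum, adjoint_elem]

lemma Signed.adjoint_op (hB : Basics S) (K : Signed S) : adjoint (K.op hB) = K.tp.op hB := by
  rw [Signed.op, Signed.op, adj_sub, adjoint_pos, adjoint_pos]; rfl

lemma pos_append (hB : Basics S) {n m : ℕ} (z : Fin n → S.M) (z' : Fin m → S.M) :
    pos (Fin.append z z') hB = pos z hB + pos z' hB := by
  simp only [pos, Fin.sum_univ_add, Fin.append_left, Fin.append_right]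

/-- Operators approximated by signed sums, together with their adjoints. -/
def Good (hB : Basics S) (T : S.LOp) : Prop :=
  ∀ η > (0 : ℝ), ∃ K : Signed S, (∀ᶠ P in fine S, sq (T - K.op hB) P ≤ η) ∧
    ∀ᶠ P in fine S, sq (adjoint T - K.tp.op hB) P ≤ η

lemma Good.adjoint {hB : Basics S} {T : S.LOp} (h : Good hB T) : Good hB (adjoint T) := by
  intro η hη
  obtain ⟨K, h1, h2⟩ := h η hη
  refine ⟨K.tp, h2, ?_⟩
  rw [adj_adj]
  have e : K.tp.tp = K := by simp [Signed.tp]
  rwa [e]

lemma good_word (hB : Basics S) (zs : List S.M) : Good hB (word hB zs) := by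
  intro η hη
  obtain ⟨n, w, h1, h2⟩ := exists_pos_approx hB zs hη
  have e : ∀ u : Fin 0 → S.M, pos u hB = 0 := fun u => Fintype.sum_empty _
  refine ⟨⟨n, 0, w, Fin.elim0⟩, ?_, ?_⟩
  · show ∀ᶠ P in fine S, sq (word hB zs - (pos w hB - pos Fin.elim0 hB)) P ≤ η
    rwa [e, sub_zero]
  · rw [adjoint_word]
    show ∀ᶠ P in fine S,
      sq (word hB (rev zs) - (pos (fun l => star (w l)) hB -
        pos (fun l : Fin 0 => star (Fin.elim0 l : S.M)) hB)) P ≤ η
    rwa [e, sub_zero]

lemma exists_signed_smul (hB : Basics S) (c : ℝ) (K : Signed S) :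
    ∃ K' : Signed S, K'.op hB = c • K.op hB ∧ K'.tp.op hB = c • K.tp.op hB := by
  set s : ℝ := Real.sqrt |c| with hs
  have hsc : ∀ z : S.M, S.elem hB ⟨s • (z : Op H), smul_real_mem_M s z.2⟩
      = |c| • S.elem hB z := fun z => by
    refine S.LOp_ext fun a => S.L2_ext ?_
    rw [smul_apply, coe_smul, coe_elem_emb, coe_elem_emb]
    show S.avec (S.E (s • (z : Op H) * (a : Op H) * star (s • (z : Op H)))) = _
    rw [star_smul, star_trivial, smul_mul_assoc, smul_mul_assoc, mul_smul_comm, smul_smul, hs,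
      Real.mul_self_sqrt (abs_nonneg c),
      E_rsmul hB _ (mul_mem (mul_mem z.2 (S.le _ a.2.1)) (star_mem z.2))]
    exact (S.avec.restrictScalars ℝ).map_smul _ _
  let sc : ∀ {n : ℕ}, (Fin n → S.M) → Fin n → S.M := fun z l =>
    ⟨s • (z l : Op H), smul_real_mem_M s (z l).2⟩
  have hpos : ∀ {n : ℕ} (z : Fin n → S.M), pos (sc z) hB = |c| • pos z hB := fun z => by
    simp only [pos, Finset.smul_sum]
    exact Finset.sum_congr rfl fun l _ => hsc _
  have hpos' : ∀ {n : ℕ} (z : Fin n → S.M),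
      pos (fun l => star (sc z l)) hB = |c| • pos (fun l => star (z l)) hB := fun z => by
    rw [← adjoint_pos, hpos, adj_smul, adjoint_pos]
  rcases le_total 0 c with h | h
  · refine ⟨⟨K.n, K.m, sc K.pp, sc K.nn⟩, ?_, ?_⟩
    · simp only [Signed.op, hpos, abs_of_nonneg h, smul_sub]
    · simp only [Signed.op, Signed.tp, hpos', abs_of_nonneg h, smul_sub]
  · refine ⟨⟨K.m, K.n, sc K.nn, sc K.pp⟩, ?_, ?_⟩
    · simp only [Signed.op, hpos, abs_of_nonpos h, neg_smul, smul_sub]; abel
    · simp only [Signed.op, Signed.tp, hpos', abs_of_nonpos h, neg_smul, smul_sub]; abel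

/-- The good operators. -/
def goodSub (hB : Basics S) : Submodule ℝ S.LOp where
  carrier := {T | Good hB T}
  zero_mem' η hη := ⟨⟨0, 0, Fin.elim0, Fin.elim0⟩,
    Eventually.of_forall fun P => by simp [Signed.op, pos, sq, hη.le],
    Eventually.of_forall fun P => by
      rw [← Signed.adjoint_op, ← adj_sub]
      simp [Signed.op, pos, sq, hη.le]⟩
  add_mem' := by
    intro T T' hT hT' η hη
    obtain ⟨K, h1, h2⟩ := hT (η / 4) (by positivity)
    obtain ⟨K', h1', h2'⟩ := hT' (η / 4) (by positivity)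
    refine ⟨⟨K.n + K'.n, K.m + K'.m, Fin.append K.pp K'.pp, Fin.append K.nn K'.nn⟩, ?_, ?_⟩
    · filter_upwards [h1, h1'] with P hP hP'
      have e : T + T' - (pos (Fin.append K.pp K'.pp) hB - pos (Fin.append K.nn K'.nn) hB)
          = (T - K.op hB) + (T' - K'.op hB) := by
        rw [pos_append, pos_append, Signed.op, Signed.op]; abel
      show sq (T + T' - (pos (Fin.append K.pp K'.pp) hB - pos (Fin.append K.nn K'.nn) hB)) P ≤ η
      rw [e]
      linarith [sq_add_le (T - K.op hB) (T' - K'.op hB) P]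
    · filter_upwards [h2, h2'] with P hP hP'
      rw [← Signed.adjoint_op] at hP hP' ⊢
      rw [adj_add]
      have e : adjoint T + adjoint T' - adjoint
          (pos (Fin.append K.pp K'.pp) hB - pos (Fin.append K.nn K'.nn) hB)
          = (adjoint T - adjoint (K.op hB)) + (adjoint T' - adjoint (K'.op hB)) := by
        rw [pos_append, pos_append, Signed.op, Signed.op]; simp only [adj_sub, adj_add]; abel
      show sq (adjoint T + adjoint T' - adjoint
        (pos (Fin.append K.pp K'.pp) hB - pos (Fin.append K.nn K'.nn) hB)) P ≤ η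
      rw [e]
      linarith [sq_add_le (adjoint T - adjoint (K.op hB)) (adjoint T' - adjoint (K'.op hB)) P]
  smul_mem' := by
    intro c T hT η hη
    obtain ⟨K, h1, h2⟩ := hT (η / (c ^ 2 + 1)) (by positivity)
    obtain ⟨K', e1, e2⟩ := exists_signed_smul hB c K
    have hb : ∀ x : ℝ, x ≤ η / (c ^ 2 + 1) → 0 ≤ x → c ^ 2 * x ≤ η := fun x hx hx0 => by
      rw [le_div_iff₀ (by positivity)] at hx; nlinarith
    refine ⟨K', ?_, ?_⟩
    · filter_upwards [h1] with P hP
      rw [e1, ← smul_sub, sq_smul]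
      exact hb _ hP (sq_nonneg' _ _)
    · filter_upwards [h2] with P hP
      rw [adj_smul, e2, ← smul_sub, sq_smul]
      exact hb _ hP (sq_nonneg' _ _)

lemma good_closure (hB : Basics S) {T : S.LOp} (h : T ∈ closure {T | Good hB T}) : Good hB T := by
  intro η hη
  obtain ⟨T', hT', hd⟩ := Metric.mem_closure_iff.1 h (Real.sqrt (η / 4)) (by positivity)
  obtain ⟨K, h1, h2⟩ := hT' (η / 4) (by positivity)
  rw [dist_eq_norm] at hd
  have hd2 : ‖T - T'‖ ^ 2 ≤ η / 4 := by
    rw [← Real.sq_sqrt (show (0 : ℝ) ≤ η / 4 by positivity)]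
    exact pow_le_pow_left₀ (norm_nonneg _) hd.le 2
  refine ⟨K, ?_, ?_⟩
  · filter_upwards [h1] with P hP
    have := sq_add_le (T - T') (T' - K.op hB) P
    rw [sub_add_sub_cancel] at this
    linarith [sq_le_norm (T - T') P]
  · filter_upwards [h2] with P hP
    have := sq_add_le (adjoint T - adjoint T') (adjoint T' - K.tp.op hB) P
    rw [sub_add_sub_cancel] at this
    have h3 := sq_le_norm (adjoint T - adjoint T') P
    rw [← adj_sub, norm_adj] at h3
    rw [← adj_sub] at this
    linarith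

/-- The closed algebra generated by the elementary maps. -/
def calc' (hB : Basics S) : Submodule ℝ S.LOp :=
  (Submodule.span ℝ (Set.range (word hB))).topologicalClosure

lemma word_mem (hB : Basics S) (zs : List S.M) : word hB zs ∈ calc' hB :=
  Submodule.le_topologicalClosure _ (Submodule.subset_span ⟨zs, rfl⟩)

lemma one_mem_calc (hB : Basics S) : (1 : S.LOp) ∈ calc' hB := word_mem hB []

lemma elem_mem_calc (hB : Basics S) (z : S.M) : S.elem hB z ∈ calc' hB := by
  have := word_mem hB [z]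
  rwa [show word hB [z] = S.elem hB z from mul_one _] at this

lemma pos_mem_calc (hB : Basics S) {n : ℕ} (z : Fin n → S.M) : pos z hB ∈ calc' hB :=
  sum_mem fun l _ => elem_mem_calc hB (z l)

lemma good_of_mem {hB : Basics S} {T : S.LOp} (h : T ∈ calc' hB) : Good hB T := by
  refine good_closure hB (closure_mono ?_ h)
  intro T hT
  exact (Submodule.span_le (p := goodSub hB)).2 (by rintro _ ⟨zs, rfl⟩; exact good_word hB zs) hT

lemma calc_isClosed (hB : Basics S) : IsClosed (calc' hB : Set S.LOp) :=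
  Submodule.isClosed_topologicalClosure _

lemma mul_mem_calc {hB : Basics S} {T T' : S.LOp} (h : T ∈ calc' hB) (h' : T' ∈ calc' hB) :
    T * T' ∈ calc' hB := by
  have key : ∀ T₁ ∈ Submodule.span ℝ (Set.range (word hB)),
      ∀ T₂ ∈ Submodule.span ℝ (Set.range (word hB)),
        T₁ * T₂ ∈ Submodule.span ℝ (Set.range (word hB)) := by
    intro T₁ h₁ T₂ h₂
    induction h₁ using Submodule.span_induction with
    | mem x hx =>
      obtain ⟨l, rfl⟩ := hx
      induction h₂ using Submodule.span_induction with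
      | mem y hy =>
        obtain ⟨l', rfl⟩ := hy
        exact Submodule.subset_span ⟨l ++ l', word_append hB l l'⟩
      | zero => rw [mul_zero]; exact zero_mem _
      | add a b _ _ ha hb => rw [mul_add]; exact add_mem ha hb
      | smul c a _ ha => rw [mul_smul_comm]; exact Submodule.smul_mem _ c ha
    | zero => rw [zero_mul]; exact zero_mem _
    | add a b _ _ ha hb => rw [add_mul]; exact add_mem ha hb
    | smul c a _ ha => rw [smul_mul_assoc]; exact Submodule.smul_mem _ c ha
  exact map_mem_closure₂ continuous_mul h h' key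

lemma adjoint_mem_calc {hB : Basics S} {T : S.LOp} (h : T ∈ calc' hB) :
    adjoint T ∈ calc' hB := by
  refine map_mem_closure (f := (adjoint : S.LOp → S.LOp)) (LinearIsometryEquiv.continuous _) h ?_
  intro T hT
  induction hT using Submodule.span_induction with
  | mem x hx =>
    obtain ⟨l, rfl⟩ := hx
    exact Submodule.subset_span ⟨rev l, (adjoint_word hB l).symm⟩
  | zero => rw [map_zero]; exact zero_mem _
  | add a b _ _ ha hb => rw [adj_add]; exact add_mem ha hb
  | smul c a _ ha => rw [adj_smul]; exact Submodule.smul_mem _ c ha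

/-- The pairing of two signed sums converges, with the same limit after transposing. -/
lemma exists_pairing_pos (hB : Basics S) {n m : ℕ} (z : Fin n → S.M) (w : Fin m → S.M) :
    ∃ L : ℝ, Tendsto (pairing (pos z hB) (pos w hB)) (fine S) (𝓝 L) ∧
      Tendsto (pairing (pos (fun l => star (z l)) hB) (pos (fun l => star (w l)) hB)) (fine S)
        (𝓝 L) := by
  have e : ∀ {k k' : ℕ} (u : Fin k → S.M) (v : Fin k' → S.M) (P : Part S),
      pairing (pos u hB) (pos v hB) P
        = (sq (pos (Fin.append u v) hB) P - sq (pos u hB) P - sq (pos v hB) P) / 2 := by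
    intro k k' u v P
    rw [← normSq_vals, ← normSq_vals, ← normSq_vals, pos_append, vals_add, norm_add_sq_real,
      inner_vals]
    ring
  have hstar : (fun l => star (Fin.append z w l))
      = Fin.append (fun l => star (z l)) (fun l => star (w l)) := by
    ext l
    induction l using Fin.addCases <;> simp
  refine ⟨((⨅ P, sq (pos (Fin.append z w) hB) P) - (⨅ P, sq (pos z hB) P)
    - (⨅ P, sq (pos w hB) P)) / 2, ?_, ?_⟩
  · exact ((((tendsto_sq_pos _ hB).sub (tendsto_sq_pos _ hB)).sub (tendsto_sq_pos _ hB)).div_const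
      2).congr fun P => (e _ _ P).symm
  · rw [iInf_sq_pos_symm (Fin.append z w) hB, iInf_sq_pos_symm z hB, iInf_sq_pos_symm w hB, hstar]
    exact ((((tendsto_sq_pos _ hB).sub (tendsto_sq_pos _ hB)).sub (tendsto_sq_pos _ hB)).div_const
      2).congr fun P => (e _ _ P).symm

lemma exists_pairing_signed (hB : Basics S) (K K' : Signed S) :
    ∃ L : ℝ, Tendsto (pairing (K.op hB) (K'.op hB)) (fine S) (𝓝 L) ∧
      Tendsto (pairing (K.tp.op hB) (K'.tp.op hB)) (fine S) (𝓝 L) := by
  obtain ⟨a, ha, ha'⟩ := exists_pairing_pos hB K.pp K'.pp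
  obtain ⟨b, hb, hb'⟩ := exists_pairing_pos hB K.pp K'.nn
  obtain ⟨c, hc, hc'⟩ := exists_pairing_pos hB K.nn K'.pp
  obtain ⟨d, hd, hd'⟩ := exists_pairing_pos hB K.nn K'.nn
  have e : ∀ (A B C D : S.LOp) (P : Part S), pairing (A - B) (C - D) P
      = pairing A C P - pairing A D P - pairing B C P + pairing B D P := by
    intro A B C D P
    simp only [← inner_vals, vals_sub, inner_sub_left, inner_sub_right]
    ring
  refine ⟨a - b - c + d, ?_, ?_⟩
  · exact (((ha.sub hb).sub hc).add hd).congr fun P => (e _ _ _ _ P).symm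
  · exact (((ha'.sub hb').sub hc').add hd').congr fun P => (e _ _ _ _ P).symm

lemma abs_pairing_sub_le (T T' K K' : S.LOp) (P : Part S) :
    |pairing T T' P - pairing K K' P|
      ≤ ‖T‖ * Real.sqrt (sq (T' - K') P) + Real.sqrt (sq (T - K) P) * (‖T'‖
        + Real.sqrt (sq (T' - K') P)) := by
  have hn : ∀ A : S.LOp, ‖vals A P‖ = Real.sqrt (sq A P) := fun A => by
    rw [← normSq_vals, Real.sqrt_sq (norm_nonneg _)]
  have hle : ∀ A : S.LOp, Real.sqrt (sq A P) ≤ ‖A‖ := fun A =>
    (Real.sqrt_le_sqrt (sq_le_norm A P)).trans_eq (Real.sqrt_sq (norm_nonneg _))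
  rw [← inner_vals, ← inner_vals,
    show ⟪vals T P, vals T' P⟫_ℝ - ⟪vals K P, vals K' P⟫_ℝ
      = ⟪vals T P, vals (T' - K') P⟫_ℝ + ⟪vals (T - K) P, vals K' P⟫_ℝ by
      simp only [vals_sub, inner_sub_left, inner_sub_right]; ring, ← hn, ← hn]
  refine (abs_add_le _ _).trans (add_le_add ((abs_real_inner_le_norm _ _).trans
    (mul_le_mul_of_nonneg_right ((hn T).trans_le (hle T)) (norm_nonneg _)))
    ((abs_real_inner_le_norm _ _).trans (mul_le_mul_of_nonneg_left ?_ (norm_nonneg _))))
  calc ‖vals K' P‖ = ‖vals T' P - vals (T' - K') P‖ := by rw [vals_sub, sub_sub_cancel]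
    _ ≤ ‖vals T' P‖ + ‖vals (T' - K') P‖ := norm_sub_le _ _
    _ ≤ ‖T'‖ + ‖vals (T' - K') P‖ := add_le_add ((hn T').trans_le (hle T')) le_rfl

/-- The pairing of operators of the algebra converges, with the same limit for their adjoints. -/
lemma exists_pairing {hB : Basics S} {T T' : S.LOp} (h : T ∈ calc' hB) (h' : T' ∈ calc' hB) :
    ∃ L : ℝ, Tendsto (pairing T T') (fine S) (𝓝 L) ∧
      Tendsto (pairing (adjoint T) (adjoint T')) (fine S) (𝓝 L) := by
  set M0 := ‖T‖ + ‖T'‖ + 1 with hM0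
  have hM : 0 < M0 := by positivity
  have key : ∀ θ > (0 : ℝ), ∃ L : ℝ,
      (∀ᶠ P in fine S, |pairing T T' P - L| ≤ θ) ∧
      ∀ᶠ P in fine S, |pairing (adjoint T) (adjoint T') P - L| ≤ θ := by
    intro θ hθ
    set δ := min 1 (θ / (4 * M0)) with hδ
    have hδ0 : 0 < δ := lt_min one_pos (by positivity)
    obtain ⟨K, hK, hKa⟩ := good_of_mem h (δ ^ 2) (by positivity)
    obtain ⟨K', hK', hKa'⟩ := good_of_mem h' (δ ^ 2) (by positivity)
    obtain ⟨L, hL, hLa⟩ := exists_pairing_signed hB K K'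
    have hsm : ∀ {A A' B B' : S.LOp} {P : Part S}, ‖A‖ ≤ M0 - 1 - ‖A'‖ →
        sq (A - B) P ≤ δ ^ 2 → sq (A' - B') P ≤ δ ^ 2 →
        |pairing A A' P - pairing B B' P| ≤ θ / 2 := by
      intro A A' B B' P hA h1 h2
      refine (abs_pairing_sub_le A A' B B' P).trans ?_
      have r1 := Real.sqrt_le_iff.2 ⟨hδ0.le, h1⟩
      have r2 := Real.sqrt_le_iff.2 ⟨hδ0.le, h2⟩
      have h3 : δ ≤ 1 := min_le_left _ _
      have h4 : δ * (4 * M0) ≤ θ := (le_div_iff₀ (by positivity)).1 (min_le_right _ _)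
      nlinarith [Real.sqrt_nonneg (sq (A - B) P), Real.sqrt_nonneg (sq (A' - B') P),
        norm_nonneg A, norm_nonneg A']
    have hclose : ∀ {f : Part S → ℝ}, Tendsto f (fine S) (𝓝 L) →
        ∀ᶠ P in fine S, |f P - L| ≤ θ / 2 := fun hf =>
      (Metric.tendsto_nhds.1 hf (θ / 2) (half_pos hθ)).mono fun P hP =>
        ((Real.dist_eq _ _).symm.trans_lt hP).le
    refine ⟨L, ?_, ?_⟩
    · filter_upwards [hK, hK', hclose hL] with P h1 h2 h3
      have := hsm (by rw [hM0]; linarith) h1 h2
      linarith [abs_sub_le (pairing T T' P) (pairing (K.op hB) (K'.op hB) P) L]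
    · filter_upwards [hKa, hKa', hclose hLa] with P h1 h2 h3
      have := hsm (by rw [norm_adj, norm_adj, hM0]; linarith) h1 h2
      linarith [abs_sub_le (pairing (adjoint T) (adjoint T') P)
        (pairing (K.tp.op hB) (K'.tp.op hB) P) L]
  have hc : Cauchy (map (pairing T T') (fine S)) := by
    refine Metric.cauchy_iff.2 ⟨inferInstance, fun ε hε => ?_⟩
    obtain ⟨L, hL, -⟩ := key (ε / 3) (by positivity)
    refine ⟨_, image_mem_map hL, ?_⟩
    rintro _ ⟨P, hP, rfl⟩ _ ⟨Q, hQ, rfl⟩
    rw [Real.dist_eq]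
    have h1 : |pairing T T' P - L| ≤ ε / 3 := hP
    have h2 : |pairing T T' Q - L| ≤ ε / 3 := hQ
    linarith [abs_sub_le (pairing T T' P) L (pairing T T' Q), abs_sub_comm L (pairing T T' Q)]
  obtain ⟨L₀, hL₀⟩ := CompleteSpace.complete hc
  refine ⟨L₀, hL₀, Metric.tendsto_nhds.2 fun ε hε => ?_⟩
  obtain ⟨L, hL, hLa⟩ := key (ε / 3) (by positivity)
  have h0 : |L₀ - L| ≤ ε / 3 :=
    le_of_tendsto ((show Tendsto (pairing T T') (fine S) (𝓝 L₀) from hL₀).sub_const L).abs hL
  filter_upwards [hLa] with P hP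
  rw [Real.dist_eq]
  linarith [abs_sub_le (pairing (adjoint T) (adjoint T') P) L L₀, abs_sub_comm L₀ L]

/-- The trace on the algebra. -/
def ell (T : S.LOp) : ℝ := limUnder (fine S) (pairing 1 T)

lemma tendsto_pairing {hB : Basics S} {T T' : S.LOp} (h : T ∈ calc' hB) (h' : T' ∈ calc' hB) :
    Tendsto (pairing T T') (fine S) (𝓝 (ell (adjoint T * T'))) := by
  obtain ⟨L, hL, -⟩ := exists_pairing h h'
  have e : ∀ P, pairing 1 (adjoint T * T') P = pairing T T' P := fun P =>
    Finset.sum_congr rfl fun i _ => ContinuousLinearMap.adjoint_inner_right T _ _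
  have h1 : Tendsto (pairing 1 (adjoint T * T')) (fine S) (𝓝 L) := by
    simpa only [funext e] using hL
  rwa [ell, h1.limUnder_eq]

lemma tendsto_ell {hB : Basics S} {T : S.LOp} (h : T ∈ calc' hB) :
    Tendsto (pairing 1 T) (fine S) (𝓝 (ell T)) := by
  simpa [adj_one] using tendsto_pairing (one_mem_calc hB) h

lemma ell_mul_comm {hB : Basics S} {T T' : S.LOp} (h : T ∈ calc' hB) (h' : T' ∈ calc' hB) :
    ell (T * T') = ell (T' * T) := by
  obtain ⟨L, hL, hLa⟩ := exists_pairing (adjoint_mem_calc h) h'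
  have e1 : ell (T * T') = L := by
    have := tendsto_pairing (adjoint_mem_calc h) h'
    rw [adj_adj] at this
    exact tendsto_nhds_unique this hL
  rw [adj_adj] at hLa
  rw [e1]
  refine (tendsto_nhds_unique (tendsto_ell (mul_mem_calc h' h)) (hLa.congr fun P => ?_)).symm
  refine Finset.sum_congr rfl fun i _ => ?_
  rw [ContinuousLinearMap.adjoint_inner_right, real_inner_comm]
  rfl

lemma ell_add {hB : Basics S} {T T' : S.LOp} (h : T ∈ calc' hB) (h' : T' ∈ calc' hB) :
    ell (T + T') = ell T + ell T' :=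
  tendsto_nhds_unique (tendsto_ell (add_mem h h')) (((tendsto_ell h).add (tendsto_ell h')).congr
    fun P => by simp only [pairing, add_apply, inner_add_right, Finset.sum_add_distrib])

lemma ell_smul {hB : Basics S} (c : ℝ) {T : S.LOp} (h : T ∈ calc' hB) :
    ell (c • T) = c * ell T :=
  tendsto_nhds_unique (tendsto_ell ((calc' hB).smul_mem c h)) (((tendsto_ell h).const_mul c).congr
    fun P => by simp only [pairing, smul_apply, inner_smul_right, Finset.mul_sum])

lemma ell_sub {hB : Basics S} {T T' : S.LOp} (h : T ∈ calc' hB) (h' : T' ∈ calc' hB) :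
    ell (T - T') = ell T - ell T' :=
  tendsto_nhds_unique (tendsto_ell (sub_mem h h')) (((tendsto_ell h).sub (tendsto_ell h')).congr
    fun P => by simp only [pairing, sub_apply, inner_sub_right, Finset.sum_sub_distrib])

lemma ell_sum {hB : Basics S} {ι : Type*} (s : Finset ι) (f : ι → S.LOp)
    (h : ∀ i ∈ s, f i ∈ calc' hB) : ell (∑ i ∈ s, f i) = ∑ i ∈ s, ell (f i) := by
  refine tendsto_nhds_unique (tendsto_ell (sum_mem h))
    ((tendsto_finsetSum s fun i hi => tendsto_ell (h i hi)).congr fun P => ?_)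
  simp only [pairing, sum_apply, inner_sum]
  exact Finset.sum_comm

lemma ell_nonneg {hB : Basics S} {T : S.LOp} (h : T ∈ calc' hB) (h0 : ∀ v, 0 ≤ ⟪v, T v⟫_ℝ) :
    0 ≤ ell T :=
  ge_of_tendsto' (tendsto_ell h) fun _ => Finset.sum_nonneg fun _ _ => h0 _

lemma ell_mono {hB : Basics S} {T T' : S.LOp} (h : T ∈ calc' hB) (h' : T' ∈ calc' hB)
    (h0 : ∀ v, ⟪v, T v⟫_ℝ ≤ ⟪v, T' v⟫_ℝ) : ell T ≤ ell T' :=
  le_of_tendsto_of_tendsto' (tendsto_ell h) (tendsto_ell h') fun _ =>
    Finset.sum_le_sum fun _ _ => h0 _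

lemma ell_one (hB : Basics S) : ell (1 : S.LOp) = 1 :=
  tendsto_nhds_unique (tendsto_ell (one_mem_calc hB)) (tendsto_const_nhds.congr fun P => by
    rw [pairing]
    simp only [one_apply_eq_self, real_inner_self_eq_norm_sq, sum_normSq_cell])

lemma abs_ell_le {hB : Basics S} {T : S.LOp} (h : T ∈ calc' hB) : |ell T| ≤ ‖T‖ :=
  le_of_tendsto' (tendsto_ell h).abs fun P => by
    calc |pairing 1 T P| ≤ ∑ i, ‖T‖ * ‖cell P i‖ ^ 2 := by
          refine (Finset.abs_sum_le_sum_abs _ _).trans (Finset.sum_le_sum fun i _ => ?_)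
          refine (abs_real_inner_le_norm _ _).trans ?_
          rw [one_apply_eq_self]
          nlinarith [T.le_opNorm (cell P i), norm_nonneg (cell P i)]
      _ = ‖T‖ := by rw [← Finset.mul_sum, sum_normSq_cell, mul_one]

end Tracial

end Vale.Agent.P078.Tr
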