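import Vale.Agent.P078.Tr.Cov.Mult

/-! The diagonal, in `A`, of an operator of the calculus. -/

open Filter Topology
open scoped ComplexOrder InnerProductSpace

noncomputable section

namespace Vale.Agent.P078.Tr

universe u

variable {H : Type u} [NormedAddCommGroup H] [InnerProductSpace ℂ H] [CompleteSpace H]
  {S : Tracial H}

attribute [local instance] InnerProductSpace.complexToReal

namespace Tracial

open ContinuousLinearMap (adjoint)

variable (hB : Basics S)
include hB

/-- The diagonal of `b ↦ E (z b z*)`. -/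
def diagElem (z : S.M) : S.saA :=
  ⟨S.E (z : Op H) * star (S.E (z : Op H)),
    mul_mem (hB.E_mem _ z.2) (star_mem (hB.E_mem _ z.2)), IsSelfAdjoint.mul_star_self _⟩

lemma ell_mulOp_elem (h : S.saA) (z : S.M) :
    ell (mulOp hB h * S.elem hB z) = trA (mulA h (diagElem hB z)) := by
  have hz : (z : Op H) ∈ S.M := z.2
  have hh := S.le _ h.2.1
  have e : ∀ P : Part S, pairing 1 (mulOp hB h * S.elem hB z) P
      = ⟪S.avec (z : Op H), S.avec ((h : Op H) * P.pinch (z : Op H))⟫_ℝ := by
    intro P
    have h1 : ∀ i, ⟪cell P i, (mulOp hB h * S.elem hB z) (cell P i)⟫_ℝ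
        = S.tr (star (z : Op H) * ((h : Op H) * (P.p i * (z : Op H) * P.p i))) := by
      intro i
      have hw : (z : Op H) * P.p i * star (z : Op H) ∈ S.M :=
        mul_mem (mul_mem hz (P.mem_M i)) (star_mem hz)
      rw [mul_apply_eq_comp, cell_eq, elem_emb, mulOp_emb, inner_emb', trA, coe_mulA, coe_mulA]
      show S.tr (P.p i * ((h : Op H) * S.E ((z : Op H) * P.p i * star (z : Op H)))) = _
      rw [← mul_assoc, tr_mul_E hB hw (mul_mem (P.mem i) h.2.1), S.comm _ (P.mem i) _ h.2.1,
        S.tr_comm (star_mem hz) (mul_mem hh (mul_mem (mul_mem (P.mem_M i) hz) (P.mem_M i)))]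
      simp only [mul_assoc]
    rw [S.inner_avec_real, Part.pinch, Finset.mul_sum, Finset.mul_sum, S.tr_sum]
    refine Finset.sum_congr rfl fun i _ => ?_
    rw [one_apply_eq_self]
    exact h1 i
  have lim : Tendsto (fun P : Part S =>
      ⟪S.avec (z : Op H), S.avec ((h : Op H) * P.pinch (z : Op H))⟫_ℝ) (fine S)
      (𝓝 ⟪S.avec (z : Op H), S.avec ((h : Op H) * S.E (z : Op H))⟫_ℝ) := by
    refine tendsto_const_nhds.inner (tendsto_iff_norm_sub_tendsto_zero.2 (squeeze_zero
      (fun _ => norm_nonneg _) (fun P => ?_) (by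
        simpa using (tendsto_iff_norm_sub_tendsto_zero.1 (tendsto_pinch hB hz)).const_mul
          ‖(h : Op H)‖)))
    rw [← map_sub, ← mul_sub, ← map_sub]
    exact S.norm_avec_mul_le _ _
  rw [tendsto_nhds_unique (tendsto_ell (mul_mem_calc (mulOp_mem hB h) (elem_mem_calc hB z)))
    (lim.congr fun P => (e P).symm), S.inner_avec_real]
  show _ = S.tr ((h : Op H) * (S.E (z : Op H) * star (S.E (z : Op H))))
  have hb := mul_mem h.2.1 (hB.E_mem _ hz)
  rw [← hB.E_star _ hz, ← mul_assoc (h : Op H) (S.E (z : Op H)), tr_mul_E hB (star_mem hz) hb,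
    S.tr_comm (S.le _ hb) (star_mem hz)]

/-- The diagonal of a signed sum. -/
def diagSigned (K : Signed S) : S.saA :=
  ∑ l, diagElem hB (K.pp l) - ∑ l, diagElem hB (K.nn l)

lemma ell_mulOp_signed (h : S.saA) (K : Signed S) :
    ell (mulOp hB h * K.op hB) = trA (mulA h (diagSigned hB K)) := by
  have hpos : ∀ {n : ℕ} (z : Fin n → S.M),
      ell (mulOp hB h * pos z hB) = trA (mulA h (∑ l, diagElem hB (z l))) := by
    intro n z
    rw [pos, Finset.mul_sum, ell_sum _ _ fun l _ =>
      mul_mem_calc (mulOp_mem hB h) (elem_mem_calc hB (z l))]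
    simp only [ell_mulOp_elem hB, ← trA_sum]
    congr 1
    exact saA_ext fun χ => by simp [Finset.mul_sum]
  rw [Signed.op, mul_sub, ell_sub (mul_mem_calc (mulOp_mem hB h) (pos_mem_calc hB _))
    (mul_mem_calc (mulOp_mem hB h) (pos_mem_calc hB _)), hpos, hpos, ← trA_sub]
  congr 1
  exact saA_ext fun χ => by simp [diagSigned, mul_sub]

lemma exists_diag {T : S.LOp} (hT : T ∈ calc' hB) :
    ∃ q : S.saA, (∀ χ, |val χ q| ≤ ‖T‖) ∧
      ∀ h : S.saA, ell (mulOp hB h * T) = trA (mulA h q) := by
  set C := ‖T‖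
  set δ : ℕ → ℝ := fun n => 1 / ((n : ℝ) + 1) with hδ
  have hδ0 : ∀ n, 0 < δ n := fun n => by positivity
  have hgood := fun n => good_of_mem hT (δ n ^ 2) (pow_pos (hδ0 n) 2)
  choose K hK _ using hgood
  set q : ℕ → S.saA := fun n => diagSigned hB (K n)
  have hKm : ∀ n, (K n).op hB ∈ calc' hB := fun n =>
    sub_mem (pos_mem_calc hB _) (pos_mem_calc hB _)
  have hq : ∀ n (h : S.saA),
      |ell (mulOp hB h * T) - trA (mulA h (q n))| ≤ ‖S.emb h‖ * δ n := by
    intro n h
    rw [← ell_mulOp_signed hB, ← ell_sub (mul_mem_calc (mulOp_mem hB h) hT)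
      (mul_mem_calc (mulOp_mem hB h) (hKm n)), ← mul_sub]
    exact abs_ell_mulOp_le hB h (sub_mem hT (hKm n)) (hδ0 n).le (hK n)
  -- bounds from the norm
  have hb : ∀ a : S.saA, (∀ χ, 0 ≤ val χ a) → |ell (mulOp hB a * T)| ≤ C * trA a := by
    intro a ha
    have hid : ∀ c : ℝ, ell (mulOp hB a * (c • (1 : S.LOp))) = c * trA a := fun c => by
      have h1 : ell (mulOp hB a) = trA a := by
        refine tendsto_nhds_unique (tendsto_ell (mulOp_mem hB a)) (tendsto_const_nhds.congr
          fun P => ?_)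
        rw [pairing, ← sum_pieceA_mul P a]
        refine Finset.sum_congr rfl fun i _ => ?_
        rw [one_apply_eq_self, cell_eq, mulOp_emb, inner_emb']
        congr 1
        refine Subtype.ext ?_
        show P.p i * (a : Op H) = P.p i * ((a : Op H) * P.p i)
        rw [S.comm _ a.2.1 _ (P.mem i), ← mul_assoc, P.mul_self]
      rw [mul_smul_comm, mul_one, ell_smul c (mulOp_mem hB a), h1]
    have hv : ∀ v : S.L2, |⟪v, T v⟫_ℝ| ≤ C * ‖v‖ ^ 2 := fun v =>
      (abs_real_inner_le_norm _ _).trans (by nlinarith [T.le_opNorm v, norm_nonneg v])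
    rw [abs_le]
    constructor
    · rw [← neg_mul, ← hid]
      refine ell_mulOp_mono hB ha (Submodule.smul_mem _ _ (one_mem_calc hB)) hT fun v => ?_
      rw [smul_apply, one_apply_eq_self, inner_smul_right, real_inner_self_eq_norm_sq]
      linarith [(abs_le.1 (hv v)).1]
    · rw [← hid]
      refine ell_mulOp_mono hB ha hT (Submodule.smul_mem _ _ (one_mem_calc hB)) fun v => ?_
      rw [smul_apply, one_apply_eq_self, inner_smul_right, real_inner_self_eq_norm_sq]
      exact (abs_le.1 (hv v)).2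
  -- clamping
  set cl : ℝ → ℝ := fun t => max (-C) (min t C) with hcl
  have hclc : Continuous cl := by fun_prop
  have hC : 0 ≤ C := norm_nonneg _
  set c : ℕ → S.saA := fun n => funA cl (q n)
  have hclose : ∀ n, ‖S.emb (q n - c n)‖ ≤ δ n := by
    intro n
    set d := q n - c n
    set dp := funA (fun t => max t 0) d
    set dm := funA (fun t => max (-t) 0) d
    have hd : d = dp - dm := saA_ext fun χ => by
      show val χ d = val χ (dp - dm)
      rw [val_sub χ dp dm, val_funA χ (by fun_prop) d, val_funA χ (by fun_prop) d]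
      rcases le_total (val χ d) 0 with h | h <;> simp [h]
    have h1 : trA (mulA d d) + C * (trA dp + trA dm) ≤ trA (mulA d (q n)) := by
      rw [← trA_add, ← trA_smul, ← trA_add]
      refine trA_mono fun χ => ?_
      have hcv : val χ (c n) = max (-C) (min (val χ (q n)) C) := val_funA χ hclc _
      simp only [val_add, val_smul, val_mulA, dp, dm, d, val_sub,
        val_funA χ (show Continuous fun t : ℝ => max t 0 by fun_prop),
        val_funA χ (show Continuous fun t : ℝ => max (-t) 0 by fun_prop), hcv]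
      rcases le_total (val χ (q n)) C with h | h
      · rcases le_total (-C) (val χ (q n)) with h' | h'
        · simp [min_eq_left h, max_eq_right h']
        · rw [min_eq_left h, max_eq_left h', max_eq_right (show val χ (q n) - -C ≤ 0 by linarith),
            max_eq_left (show 0 ≤ -(val χ (q n) - -C) by linarith)]
          nlinarith
      · rw [min_eq_right h, max_eq_right (show -C ≤ C by linarith),
          max_eq_left (show 0 ≤ val χ (q n) - C by linarith),
          max_eq_right (show -(val χ (q n) - C) ≤ 0 by linarith)]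
        nlinarith
    have h2 : ell (mulOp hB d * T) ≤ C * (trA dp + trA dm) := by
      rw [hd, mulOp_sub, sub_mul, ell_sub (mul_mem_calc (mulOp_mem hB _) hT)
        (mul_mem_calc (mulOp_mem hB _) hT)]
      have hp := hb dp fun χ => by rw [val_funA χ (by fun_prop)]; exact le_max_right _ _
      have hm := hb dm fun χ => by rw [val_funA χ (by fun_prop)]; exact le_max_right _ _
      linarith [(abs_le.1 hp).2, (abs_le.1 hm).1]
    have h3 := (abs_le.1 (hq n d)).1
    rw [← normSq_emb'] at h1
    nlinarith [norm_nonneg (S.emb d), hδ0 n]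
  have hc : ∀ n (h : S.saA),
      |ell (mulOp hB h * T) - trA (mulA h (c n))| ≤ 2 * (‖S.emb h‖ * δ n) := by
    intro n h
    have e : trA (mulA h (q n)) - trA (mulA h (c n)) = trA (mulA h (q n - c n)) := by
      rw [← trA_sub]; congr 1; exact saA_ext fun χ => by simp [mul_sub]
    have h1 := hq n h
    have h2 := (abs_trA_mulA_le h (q n - c n)).trans
      (mul_le_mul_of_nonneg_left (hclose n) (norm_nonneg _))
    rw [← e] at h2
    linarith [abs_sub_le (ell (mulOp hB h * T)) (trA (mulA h (q n))) (trA (mulA h (c n)))]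
  have hdist : ∀ n m, ‖S.emb (c n - c m)‖ ≤ 2 * (δ n + δ m) := by
    intro n m
    set d := c n - c m
    have e : trA (mulA d d) = trA (mulA d (c n)) - trA (mulA d (c m)) := by
      rw [← trA_sub]; congr 1; exact saA_ext fun χ => by simp [d]; ring
    rw [← normSq_emb'] at e
    have h1 := abs_le.1 (hc n d)
    have h2 := abs_le.1 (hc m d)
    nlinarith [norm_nonneg (S.emb d), hδ0 n, hδ0 m]
  have hδlim : Tendsto δ atTop (𝓝 0) := tendsto_one_div_add_atTop_nhds_zero_nat
  -- the strong limit
  have hnorm : ∀ n, ‖(c n : Op H)‖ ≤ C := fun n => norm_cfc_le hC fun t _ =>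
    abs_le.2 ⟨le_max_left _ _, max_le (by linarith) (min_le_right _ _)⟩
  have hcau : ∀ k, CauchySeq fun n => (c n : Op H) (S.vec k) := by
    intro k
    refine Metric.cauchySeq_iff.2 fun η hη => ?_
    obtain ⟨N, hN⟩ := eventually_atTop.1 (hδlim.eventually (eventually_lt_nhds
      (show (0 : ℝ) < η / 4 by positivity)))
    refine ⟨N, fun n hn m hm => ?_⟩
    rw [dist_eq_norm]
    refine lt_of_le_of_lt (le_trans ?_ (hdist n m)) (by linarith [hN n hn, hN m hm])
    show _ ≤ ‖S.avec ((c n : Op H) - (c m : Op H))‖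
    have := lp.norm_apply_le_norm (by norm_num : (2 : ENNReal) ≠ 0)
      (S.avec ((c n : Op H) - (c m : Op H))) k
    simpa using this
  obtain ⟨a, haM, haC, hlim⟩ := S.exists_strong_limit (fun n => S.le _ (c n).2.1) hnorm hcau
  have haA : a ∈ S.A := by
    refine S.masa a haM fun b hb => ContinuousLinearMap.ext fun v => ?_
    refine tendsto_nhds_unique (hlim (b v)) (((b.continuous.tendsto _).comp (hlim v)).congr
      fun n => ?_)
    exact DFunLike.congr_fun (S.comm b hb _ (c n).2.1) v
  have hsa : IsSelfAdjoint a := by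
    refine ContinuousLinearMap.isSelfAdjoint_iff_isSymmetric.2 fun v w => ?_
    exact tendsto_nhds_unique ((hlim v).inner tendsto_const_nhds)
      ((tendsto_const_nhds.inner (hlim w)).congr fun n =>
        ((c n).2.2.isSymmetric v w).symm)
  refine ⟨⟨a, haA, hsa⟩, fun χ => (abs_ev_le haA).trans haC, fun h => ?_⟩
  have htr : Tendsto (fun n => trA (mulA h (c n))) atTop (𝓝 (trA (mulA h ⟨a, haA, hsa⟩))) := by
    refine (Complex.continuous_re.tendsto _).comp (S.tendsto_tau (C := ‖(h : Op H)‖ * C)
      (fun n => (norm_mul_le _ _).trans (mul_le_mul_of_nonneg_left (hnorm n) (norm_nonneg _)))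
      fun v => ((h : Op H).continuous.tendsto _).comp (hlim v))
  refine tendsto_nhds_unique (tendsto_iff_norm_sub_tendsto_zero.2
    (squeeze_zero (g := fun n => 2 * (‖S.emb h‖ * δ n)) (fun _ => norm_nonneg _) (fun n => ?_) ?_))
    htr
  · rw [Real.norm_eq_abs, abs_sub_comm]; exact hc n h
  · simpa using (hδlim.const_mul ‖S.emb h‖).const_mul 2

/-- The diagonal. -/
def diag (T : S.LOp) : S.saA :=
  open Classical in if h : T ∈ calc' hB then Classical.choose (exists_diag hB h) else 0

lemma abs_val_diag {T : S.LOp} (hT : T ∈ calc' hB) (χ : S.Chi) : |val χ (diag hB T)| ≤ ‖T‖ := by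
  rw [diag, dif_pos hT]
  exact (Classical.choose_spec (exists_diag hB hT)).1 χ

lemma ell_mulOp {T : S.LOp} (hT : T ∈ calc' hB) (h : S.saA) :
    ell (mulOp hB h * T) = trA (mulA h (diag hB T)) := by
  rw [diag, dif_pos hT]
  exact (Classical.choose_spec (exists_diag hB hT)).2 h

lemma ell_mulOp_self (a : S.saA) : ell (mulOp hB a) = trA a := by
  refine tendsto_nhds_unique (tendsto_ell (mulOp_mem hB a)) (tendsto_const_nhds.congr fun P => ?_)
  rw [pairing, ← sum_pieceA_mul P a]
  refine Finset.sum_congr rfl fun i _ => ?_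
  rw [one_apply_eq_self, cell_eq, mulOp_emb, inner_emb']
  congr 1
  refine Subtype.ext ?_
  show P.p i * (a : Op H) = P.p i * ((a : Op H) * P.p i)
  rw [S.comm _ a.2.1 _ (P.mem i), ← mul_assoc, P.mul_self]

lemma ell_eq_trA_diag {T : S.LOp} (hT : T ∈ calc' hB) : ell T = trA (diag hB T) := by
  rw [← one_mul T, ← mulOp_one hB, ell_mulOp hB hT, mulOp_one, one_mul]
  congr 1

lemma diag_mono {T T' : S.LOp} (hT : T ∈ calc' hB) (hT' : T' ∈ calc' hB)
    (h : ∀ v, ⟪v, T v⟫_ℝ ≤ ⟪v, T' v⟫_ℝ) (χ : S.Chi) :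
    val χ (diag hB T) ≤ val χ (diag hB T') := by
  refine val_le_of_trA_le (fun k hk => ?_) χ
  rw [← ell_mulOp hB hT, ← ell_mulOp hB hT']
  exact ell_mulOp_mono hB hk hT hT' h

lemma diag_nonneg {T : S.LOp} (hT : T ∈ calc' hB) (h : ∀ v, 0 ≤ ⟪v, T v⟫_ℝ) (χ : S.Chi) :
    0 ≤ val χ (diag hB T) := by
  have h0 : val χ (diag hB (0 : S.LOp)) = 0 := by
    have := abs_val_diag hB (zero_mem _) χ (T := (0 : S.LOp))
    simpa using this
  rw [← h0]
  exact diag_mono hB (zero_mem _) hT (fun v => by simpa using h v) χ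

end Tracial

end Vale.Agent.P078.Tr
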