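import Vale.Agent.P078.Tr.Cov.Lev

/-! Fields on fine cells realising operators of the calculus, with bounded square sums. -/

open Filter Topology
open scoped ComplexOrder InnerProductSpace

noncomputable section

namespace Vale.Agent.P078.Tr

universe u

variable {H : Type u} [NormedAddCommGroup H] [InnerProductSpace ℂ H] [CompleteSpace H]
  {S : Tracial H}

attribute [local instance] InnerProductSpace.complexToReal

namespace Tracial

open ContinuousLinearMap (adjoint)

variable (hB : Basics S)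

/-- The value at a piece of a sum of elementary maps, in `A`. -/
def posVal {n : ℕ} (z : Fin n → S.M) (P : Part S) (i : Fin P.n) : S.saA :=
  ∑ l, S.elemFn hB (z l) (pieceA P i)

lemma pos_cell {n : ℕ} (z : Fin n → S.M) (P : Part S) (i : Fin P.n) :
    pos z hB (cell P i) = S.emb (posVal hB z P i) := by
  rw [posVal, map_sum, pos, sum_apply]
  exact Finset.sum_congr rfl fun l _ => elem_emb hB (z l) _

lemma coe_posVal {n : ℕ} (z : Fin n → S.M) (P : Part S) (i : Fin P.n) :
    ((posVal hB z P i : S.saA) : Op H) = S.E (raw z (P.p i)) := by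
  rw [posVal, AddSubmonoidClass.coe_finsetSum, raw,
    E_sum hB _ _ fun l _ => mul_mem (mul_mem (z l).2 (P.mem_M i)) (star_mem (z l).2)]
  rfl

/-- The square sum of the values of a sum of elementary maps. -/
def posSq {n : ℕ} (z : Fin n → S.M) (P : Part S) : S.saA :=
  ∑ i, mulA (posVal hB z P i) (posVal hB z P i)

lemma trA_posSq {n : ℕ} (z : Fin n → S.M) (P : Part S) :
    trA (posSq hB z P) = sq (pos z hB) P := by
  rw [posSq, trA_sum]
  exact Finset.sum_congr rfl fun i _ => by rw [pos_cell hB, normSq_emb']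

lemma posSq_mono {n : ℕ} (z : Fin n → S.M) {P Q : Part S} (h : Q.Refines P) (χ : S.Chi) :
    val χ (posSq hB z Q) ≤ val χ (posSq hB z P) := by
  have h0 : ∀ j, 0 ≤ val χ (posVal hB z Q j) := fun j =>
    (saA_nonneg_iff (a := posVal hB z Q j)).1 (by
      rw [coe_posVal]
      exact hB.E_nonneg _ (raw_mem z (Q.mem_M j)) (raw_nonneg z (Q.proj j).nonneg)) χ
  choose k hk using h
  have hsum : ∀ i, val χ (posVal hB z P i)
      = ∑ j ∈ Finset.univ.filter (fun j => k j = i), val χ (posVal hB z Q j) := by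
    intro i
    rw [← val_sum]
    congr 1
    refine Subtype.ext ?_
    rw [coe_posVal, AddSubmonoidClass.coe_finsetSum]
    simp only [coe_posVal]
    rw [← E_sum hB _ _ fun j _ => raw_mem z (Q.mem_M j), ← raw_sum]
    congr 2
    calc P.p i = ∑ j, P.p i * Q.p j := by rw [← Finset.mul_sum, Q.sum_eq, mul_one]
      _ = _ := by
        rw [Finset.sum_filter]
        refine Finset.sum_congr rfl fun j _ => ?_
        split_ifs with hj
        · rw [← hj, hk j]
        · rw [← hk j, ← mul_assoc, P.orth i (k j) (Ne.symm hj), zero_mul]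
  simp only [posSq, val_sum, val_mulA, ← pow_two, hsum]
  rw [← Finset.sum_fiberwise Finset.univ k]
  exact Finset.sum_le_sum fun i _ => Finset.sum_sq_le_sq_sum_of_nonneg fun j _ => h0 j

/-- The value at a piece of a signed sum, cut down to `e`. -/
def signedVal (e : S.saA) (K : Signed S) (P : Part S) (i : Fin P.n) : S.saA :=
  mulA e (posVal hB K.pp P i - posVal hB K.nn P i)

lemma signed_cell (e : S.saA) (K : Signed S) (P : Part S) (i : Fin P.n) :
    (mulOp hB e * K.op hB) (cell P i) = S.emb (signedVal hB e K P i) := by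
  rw [mul_apply_eq_comp, Signed.op, sub_apply, pos_cell, pos_cell, ← map_sub, mulOp_emb]
  rfl

/-- The square sum of the values of a signed sum cut down to `e`. -/
def signedSq (e : S.saA) (K : Signed S) (P : Part S) : S.saA :=
  ∑ i, mulA (signedVal hB e K P i) (signedVal hB e K P i)

lemma val_signedSq (e : S.saA) (K : Signed S) (P : Part S) (χ : S.Chi) :
    val χ (signedSq hB e K P) = val χ e ^ 2 * (2 * val χ (posSq hB K.pp P)
      + 2 * val χ (posSq hB K.nn P) - val χ (posSq hB (Fin.append K.pp K.nn) P)) := by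
  simp only [signedSq, signedVal, posSq, val_sum, val_mulA, val_sub]
  rw [Finset.mul_sum (s := Finset.univ) (a := (2 : ℝ)), Finset.mul_sum (s := Finset.univ)
    (a := (2 : ℝ)), ← Finset.sum_add_distrib, ← Finset.sum_sub_distrib, Finset.mul_sum]
  refine Finset.sum_congr rfl fun i _ => ?_
  have e' : val χ (posVal hB (Fin.append K.pp K.nn) P i)
      = val χ (posVal hB K.pp P i) + val χ (posVal hB K.nn P i) := by
    rw [← val_add]
    congr 1
    simp only [posVal, Fin.sum_univ_add, Fin.append_left, Fin.append_right]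
  rw [e']
  ring

/-- The variation of the square sums of a signed sum under refinement. -/
lemma abs_signedSq_sub {e : S.saA} (he : mulA e e = e) (K : Signed S) {P Q : Part S}
    (h : Q.Refines P) (χ : S.Chi) :
    |val χ (signedSq hB e K Q) - val χ (signedSq hB e K P)|
      ≤ val χ ((2 : ℝ) • (posSq hB K.pp P - posSq hB K.pp Q)
        + (2 : ℝ) • (posSq hB K.nn P - posSq hB K.nn Q)
        + (posSq hB (Fin.append K.pp K.nn) P - posSq hB (Fin.append K.pp K.nn) Q)) := by
  have he2 : val χ e ^ 2 ≤ 1 := by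
    have h' := congrArg (val χ) he
    rw [val_mulA, mul_right_eq_self₀] at h'
    rcases h' with h' | h' <;> rw [h'] <;> norm_num
  have h1 := posSq_mono hB K.pp h χ
  have h2 := posSq_mono hB K.nn h χ
  have h3 := posSq_mono hB (Fin.append K.pp K.nn) h χ
  rw [val_signedSq, val_signedSq, ← mul_sub, abs_mul, abs_of_nonneg (sq_nonneg _)]
  simp only [val_add, val_smul, val_sub]
  refine (mul_le_of_le_one_left (abs_nonneg _) he2).trans (abs_le.2 ⟨?_, ?_⟩) <;> linarith

/-- The square sums of a signed sum stabilise in the trace norm. -/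
lemma eventually_signedSq_cauchy {e : S.saA} (he : mulA e e = e) (K : Signed S) {θ : ℝ}
    (hθ : 0 < θ) : ∀ᶠ P in fine S, ∀ Q : Part S, Q.Refines P → ∃ d : S.saA, trA d ≤ θ ∧
      ∀ χ, |val χ (signedSq hB e K Q) - val χ (signedSq hB e K P)| ≤ val χ d := by
  have key : ∀ {n : ℕ} (z : Fin n → S.M), ∀ᶠ P in fine S, ∀ Q : Part S, Q.Refines P →
      trA (posSq hB z P - posSq hB z Q) ≤ θ / 5 := by
    intro n z
    filter_upwards [(tendsto_sq_pos z hB).eventually (eventually_le_nhds
      (lt_add_of_pos_right _ (show (0 : ℝ) < θ / 5 by positivity)))] with P hP Q _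
    rw [trA_sub, trA_posSq, trA_posSq]
    linarith [ciInf_le (bddBelow_sq_pos z hB) Q]
  filter_upwards [key K.pp, key K.nn, key (Fin.append K.pp K.nn)] with P h1 h2 h3 Q hQ
  refine ⟨_, ?_, fun χ => abs_signedSq_sub hB he K hQ χ⟩
  rw [trA_add, trA_add, trA_smul, trA_smul]
  linarith [h1 Q hQ, h2 Q hQ, h3 Q hQ]

/-- A bound for two families of vectors against an operator. -/
lemma abs_form_sub_le {ι : Type*} [Fintype ι] (Z : S.LOp) (u w : ι → S.L2) {M θ : ℝ}
    (hw : ∑ i, ‖w i‖ ^ 2 ≤ M) (h : ∑ i, ‖u i - w i‖ ^ 2 ≤ θ) :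
    |∑ i, ⟪u i, Z (u i)⟫_ℝ - ∑ i, ⟪w i, Z (w i)⟫_ℝ|
      ≤ ‖Z‖ * (Real.sqrt θ * (Real.sqrt θ + 2 * Real.sqrt M)) := by
  have hterm : ∀ i, |⟪u i, Z (u i)⟫_ℝ - ⟪w i, Z (w i)⟫_ℝ|
      ≤ ‖Z‖ * (‖u i - w i‖ ^ 2 + 2 * (‖u i - w i‖ * ‖w i‖)) := by
    intro i
    have hb : ∀ a b : S.L2, |⟪a, Z b⟫_ℝ| ≤ ‖Z‖ * (‖a‖ * ‖b‖) := fun a b =>
      (abs_real_inner_le_norm _ _).trans (by
        nlinarith [mul_le_mul_of_nonneg_left (Z.le_opNorm b) (norm_nonneg a)])
    have e : ⟪u i, Z (u i)⟫_ℝ - ⟪w i, Z (w i)⟫_ℝ = ⟪u i - w i, Z (u i - w i)⟫_ℝ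
        + ⟪u i - w i, Z (w i)⟫_ℝ + ⟪w i, Z (u i - w i)⟫_ℝ := by
      simp only [inner_sub_left, inner_sub_right, map_sub]; ring
    rw [e]
    refine (abs_add_three _ _ _).trans ?_
    nlinarith [hb (u i - w i) (u i - w i), hb (u i - w i) (w i), hb (w i) (u i - w i)]
  rw [← Finset.sum_sub_distrib]
  refine (Finset.abs_sum_le_sum_abs _ _).trans ((Finset.sum_le_sum fun i _ => hterm i).trans ?_)
  rw [← Finset.mul_sum, Finset.sum_add_distrib, ← Finset.mul_sum]
  refine mul_le_mul_of_nonneg_left ?_ (norm_nonneg _)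
  have hθ : 0 ≤ θ := le_trans (Finset.sum_nonneg fun i _ => sq_nonneg _) h
  have h2 := Real.sum_mul_le_sqrt_mul_sqrt Finset.univ (fun i => ‖u i - w i‖) (fun i => ‖w i‖)
  have h3 : Real.sqrt (∑ i, ‖u i - w i‖ ^ 2) * Real.sqrt (∑ i, ‖w i‖ ^ 2)
      ≤ Real.sqrt θ * Real.sqrt M := mul_le_mul (Real.sqrt_le_sqrt h) (Real.sqrt_le_sqrt hw)
    (Real.sqrt_nonneg _) (Real.sqrt_nonneg _)
  nlinarith [Real.mul_self_sqrt hθ]

variable {r : ℕ}

/-- Fields on fine cells close to the operators `T`, with square sums at most two. -/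
theorem exists_fields {T : Fin r → Fin r → S.LOp} {e : Fin r → S.saA}
    (hT : ∀ c d, T c d ∈ calc' hB) (he : ∀ c, mulA (e c) (e c) = e c)
    (hsupp : ∀ c d, mulOp hB (e c) * T c d = T c d)
    (hle : ∀ c, ∀ h : S.saA, (∀ χ, 0 ≤ val χ h) →
      ∑ d, ell (adjoint (T c d) * mulOp hB h * T c d) ≤ trA h) {θ : ℝ} (hθ : 0 < θ) :
    ∀ᶠ P in fine S, ∃ f : Fin r → Fin r × Fin P.n → S.saA,
      (∀ c j, mulA (e c) (f c j) = f c j) ∧
      (∀ c χ, ∑ j, val χ (f c j) ^ 2 ≤ 2) ∧
      ∀ c, ∑ j : Fin r × Fin P.n, ‖S.emb (f c j) - T c j.1 (cell P j.2)‖ ^ 2 ≤ θ := by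
  set M : ℝ := ∑ c, ∑ d, ‖T c d‖ ^ 2 with hM
  have hM0 : 0 ≤ M := by positivity
  set θ₁ : ℝ := θ / 20 with hθ₁
  set δ : ℝ := min (θ₁ / (r + 1)) ((θ₁ / ((r + 1) * (2 * Real.sqrt M + 2))) ^ 2) with hδ
  have hθ₁0 : 0 < θ₁ := by positivity
  have hδ0 : 0 < δ := lt_min (by positivity) (by positivity)
  have hr : (0 : ℝ) ≤ r := Nat.cast_nonneg r
  have hgood : ∀ c d, ∃ K : Signed S, ∀ᶠ P in fine S, sq (T c d - K.op hB) P ≤ min δ 1 :=
    fun c d => (good_of_mem (hT c d) (min δ 1) (lt_min hδ0 one_pos)).imp fun K h => h.1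
  choose K hK using hgood
  have he01 : ∀ c χ, val χ (e c) = 1 ∨ val χ (e c) = 0 := fun c χ => by
    have h := congrArg (val χ) (he c)
    rwa [val_mulA, mul_right_eq_self₀] at h
  have hne : ∀ c, ‖mulOp hB (e c)‖ ≤ 1 := fun c => by
    refine norm_le_of_form zero_le_one (adjoint_mulOp hB _) (inner_mulOp_nonneg hB fun χ => ?_)
      fun v => ?_
    · rcases he01 c χ with h | h <;> rw [h]; exact zero_le_one
    · refine (inner_mulOp_mono hB (b := oneA S) (fun χ => ?_) v).trans (le_of_eq ?_)
      · rw [val_oneA]; rcases he01 c χ with h | h <;> rw [h]; exact zero_le_one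
      · rw [mulOp_one, one_apply_eq_self, real_inner_self_eq_norm_sq, one_mul]
  -- closeness before the cutoff
  have hclose : ∀ᶠ P in fine S, ∀ c d,
      sq (T c d - mulOp hB (e c) * (K c d).op hB) P ≤ min δ 1 := by
    refine eventually_all.2 fun c => eventually_all.2 fun d => (hK c d).mono fun P hP => ?_
    have e1 : T c d - mulOp hB (e c) * (K c d).op hB
        = mulOp hB (e c) * (T c d - (K c d).op hB) := by rw [mul_sub, hsupp]
    rw [e1]
    exact (sq_mul_le _ _ P).trans ((mul_le_of_le_one_left (sq_nonneg' _ _)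
      (by nlinarith [hne c, norm_nonneg (mulOp hB (e c))])).trans hP)
  let V : Fin r → Part S → S.saA := fun c P => ∑ d, signedSq hB (e c) (K c d) P
  -- a coarse partition after which the square sums hardly move
  obtain ⟨P₁, hP₁⟩ := (eventually_all.2 fun c : Fin r => eventually_all.2 fun d : Fin r =>
    eventually_signedSq_cauchy hB (he c) (K c d)
      (show (0 : ℝ) < θ₁ / (r + 1) by positivity)).exists
  have hmove : ∀ c, ∀ Q : Part S, Q.Refines P₁ → ∃ d : S.saA, trA d ≤ θ₁ ∧
      ∀ χ, |val χ (V c Q) - val χ (V c P₁)| ≤ val χ d := by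
    intro c Q hQ
    choose d hd1 hd2 using fun i => hP₁ c i Q hQ
    refine ⟨∑ i, d i, ?_, fun χ => ?_⟩
    · rw [trA_sum]
      refine (Finset.sum_le_sum fun i _ => hd1 i).trans ?_
      rw [Finset.sum_const, Finset.card_univ, Fintype.card_fin, nsmul_eq_mul, mul_div_assoc',
        div_le_iff₀ (by positivity)]
      nlinarith
    · simp only [V, val_sum, ← Finset.sum_sub_distrib]
      exact (Finset.abs_sum_le_sum_abs _ _).trans (Finset.sum_le_sum fun i _ => hd2 i χ)
  -- the excess of the square sums there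
  let hh : Fin r → S.saA := fun c => funA (fun t => max (min (t - 1) 1) 0) (V c P₁)
  have hhv : ∀ c χ, val χ (hh c) = max (min (val χ (V c P₁) - 1) 1) 0 := fun c χ =>
    val_funA χ (by fun_prop) _
  have hh0 : ∀ c χ, 0 ≤ val χ (hh c) := fun c χ => by rw [hhv]; exact le_max_right _ _
  have hlim : ∀ c, Tendsto (fun P => ∑ d, pairing (T c d) (mulOp hB (hh c) * T c d) P) (fine S)
      (𝓝 (∑ d, ell (adjoint (T c d) * mulOp hB (hh c) * T c d))) := fun c =>
    tendsto_finsetSum _ fun d _ => by
      rw [mul_assoc]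
      exact tendsto_pairing (hT c d) (mul_mem_calc (mulOp_mem hB _) (hT c d))
  filter_upwards [hclose, eventually_refines P₁, eventually_all.2 fun c : Fin r =>
    (hlim c).eventually (eventually_le_nhds (lt_add_of_pos_right _ hθ₁0))] with P hcl hPP hpair
  let v : Fin r → Fin r × Fin P.n → S.saA := fun c j => signedVal hB (e c) (K c j.1) P j.2
  have hv : ∀ c j, S.emb (v c j) = (mulOp hB (e c) * (K c j.1).op hB) (cell P j.2) := fun c j =>
    (signed_cell hB _ _ P _).symm
  have hV : ∀ c, V c P = ∑ j, mulA (v c j) (v c j) := fun c => by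
    simp only [V, v, signedSq, Fintype.sum_prod_type]
  let g : ℝ → ℝ := fun t => 1 / Real.sqrt (max (t / 2) 1)
  have hgc : Continuous g := continuous_const.div (by fun_prop) fun t =>
    (Real.sqrt_pos.2 (zero_lt_one.trans_le (le_max_right _ _))).ne'
  have hvd : ∀ c, ∑ j : Fin r × Fin P.n, ‖S.emb (v c j) - T c j.1 (cell P j.2)‖ ^ 2
      ≤ (r : ℝ) * min δ 1 := by
    intro c
    rw [Fintype.sum_prod_type]
    refine (Finset.sum_le_sum fun d _ => le_trans (le_of_eq ?_) (hcl c d)).trans (by simp)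
    refine Finset.sum_congr rfl fun i _ => ?_
    rw [hv, sub_apply, norm_sub_rev]
  have hmin : min δ 1 ≤ δ := min_le_left _ _
  have htailc : ∀ c, trA (funA (fun t => max (t - 2) 0) (V c P)) ≤ 5 * θ₁ := by
    intro c
    obtain ⟨d, hd1, hd2⟩ := hmove c P hPP
    have step1 : trA (funA (fun t => max (t - 2) 0) (V c P))
        ≤ trA (d + d + (mulA (hh c) (V c P) - hh c)) := by
      refine trA_mono fun χ => ?_
      rw [val_funA χ (by fun_prop)]
      simp only [val_add, val_sub, val_mulA, hhv]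
      have h1 := abs_le.1 (hd2 χ)
      set t₁ := val χ (V c P₁)
      set t := val χ (V c P)
      rcases le_total (t₁ - 1) 0 with h | h
      · rw [max_eq_right ((min_le_left _ _).trans h)]
        rcases le_total (t - 2) 0 with h' | h'
        · rw [max_eq_right h']; linarith
        · rw [max_eq_left h']; linarith
      rcases le_total (t₁ - 1) 1 with h' | h'
      · rw [min_eq_left h', max_eq_left h]
        rcases le_total (t - 2) 0 with h'' | h''
        · rw [max_eq_right h'']; nlinarith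
        · rw [max_eq_left h'']; nlinarith
      · rw [min_eq_right h', max_eq_left zero_le_one]
        rcases le_total (t - 2) 0 with h'' | h''
        · rw [max_eq_right h'']; linarith
        · rw [max_eq_left h'']; linarith
    have step2 : trA (mulA (hh c) (V c P)) ≤ trA (hh c) + 3 * θ₁ := by
      have e1 : trA (mulA (hh c) (V c P))
          = ∑ j, ⟪S.emb (v c j), mulOp hB (hh c) (S.emb (v c j))⟫_ℝ := by
        simp only [mulOp_emb, inner_emb', ← trA_sum]
        congr 1
        refine saA_ext fun χ => ?_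
        simp only [hV, val_mulA, val_sum, Finset.mul_sum]
        exact Finset.sum_congr rfl fun j _ => by ring
      have hb := abs_form_sub_le (mulOp hB (hh c)) (fun j => S.emb (v c j))
        (fun j : Fin r × Fin P.n => T c j.1 (cell P j.2)) (M := M) (θ := (r : ℝ) * δ) (by
          rw [Fintype.sum_prod_type]
          refine (Finset.sum_le_sum fun d _ => sq_le_norm (T c d) P).trans ?_
          exact Finset.single_le_sum (f := fun c => ∑ d, ‖T c d‖ ^ 2)
            (fun i _ => by positivity) (Finset.mem_univ c))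
        ((hvd c).trans (mul_le_mul_of_nonneg_left hmin hr))
      have e2 : ∑ j : Fin r × Fin P.n, ⟪T c j.1 (cell P j.2),
          mulOp hB (hh c) (T c j.1 (cell P j.2))⟫_ℝ
            = ∑ d, pairing (T c d) (mulOp hB (hh c) * T c d) P := by
        rw [Fintype.sum_prod_type]; rfl
      have hn : ‖mulOp hB (hh c)‖ ≤ 1 := by
        refine norm_le_of_form zero_le_one (adjoint_mulOp hB _) (inner_mulOp_nonneg hB (hh0 c))
          fun w => ?_
        refine (inner_mulOp_mono hB (b := oneA S) (fun χ => ?_) w).trans (le_of_eq ?_)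
        · rw [val_oneA, hhv]; exact max_le (min_le_right _ _) zero_le_one
        · rw [mulOp_one, one_apply_eq_self, real_inner_self_eq_norm_sq, one_mul]
      have hsm : Real.sqrt ((r : ℝ) * δ) * (Real.sqrt ((r : ℝ) * δ) + 2 * Real.sqrt M)
          ≤ 2 * θ₁ := by
        have h1 : (r : ℝ) * δ ≤ θ₁ := by
          have := (le_div_iff₀ (by positivity : (0 : ℝ) < r + 1)).1
            (min_le_left (θ₁ / (r + 1)) _ : δ ≤ _)
          nlinarith
        have h2 : Real.sqrt ((r : ℝ) * δ) * (2 * Real.sqrt M) ≤ θ₁ := by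
          have hs : Real.sqrt ((r : ℝ) * δ) ≤ (r + 1) * Real.sqrt δ := by
            rw [Real.sqrt_mul hr]
            refine mul_le_mul_of_nonneg_right (Real.sqrt_le_iff.2 ⟨by positivity, ?_⟩)
              (Real.sqrt_nonneg _)
            nlinarith
          have hd' : Real.sqrt δ ≤ θ₁ / ((r + 1) * (2 * Real.sqrt M + 2)) :=
            Real.sqrt_le_iff.2 ⟨by positivity, min_le_right _ _⟩
          rw [le_div_iff₀ (by positivity)] at hd'
          nlinarith [Real.sqrt_nonneg δ, Real.sqrt_nonneg M, Real.sqrt_nonneg ((r : ℝ) * δ)]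
        nlinarith [Real.mul_self_sqrt (show 0 ≤ (r : ℝ) * δ by positivity)]
      have hle' := hle c (hh c) (hh0 c)
      rw [e1]
      rw [e2] at hb
      have h5 := (abs_le.1 hb).2
      have h6 := mul_le_mul hn hsm (by positivity) zero_le_one
      linarith [hpair c]
    rw [trA_add, trA_add, trA_sub] at step1
    linarith
  refine ⟨fun c j => mulA (funA g (V c P)) (v c j), fun c j => saA_ext fun χ => ?_, fun c χ => ?_,
    fun c => ?_⟩
  · simp only [v, signedVal, val_mulA]
    rcases he01 c χ with h | h <;> rw [h] <;> ring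
  · have e1 : ∑ j, val χ (mulA (funA g (V c P)) (v c j)) ^ 2
        = g (val χ (V c P)) ^ 2 * val χ (V c P) := by
      simp only [hV, val_mulA, val_sum, val_funA χ hgc, Finset.mul_sum]
      exact Finset.sum_congr rfl fun j _ => by ring
    rw [e1]
    simp only [g, div_pow, one_pow,
      Real.sq_sqrt (zero_le_one.trans (le_max_right (val χ (V c P) / 2) 1))]
    rw [div_mul_eq_mul_div, one_mul, div_le_iff₀ (zero_lt_one.trans_le (le_max_right _ _))]
    linarith [le_max_left (val χ (V c P) / 2) 1]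
  · have hcut : ∑ j, ‖S.emb (mulA (funA g (V c P)) (v c j)) - S.emb (v c j)‖ ^ 2 ≤ 5 * θ₁ := by
      refine le_trans ?_ (htailc c)
      simp only [← map_sub, normSq_emb', ← trA_sum]
      refine trA_mono fun χ => ?_
      have e1 : val χ (∑ j, mulA (mulA (funA g (V c P)) (v c j) - v c j)
            (mulA (funA g (V c P)) (v c j) - v c j))
          = (g (val χ (V c P)) - 1) ^ 2 * val χ (V c P) := by
        simp only [hV, val_mulA, val_sum, val_sub, val_funA χ hgc, Finset.mul_sum]
        exact Finset.sum_congr rfl fun j _ => by ring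
      rw [e1, val_funA χ (by fun_prop)]
      set t := val χ (V c P)
      rcases le_total (t / 2) 1 with h | h
      · simp [g, max_eq_right h]
      · simp only [g, max_eq_left h]
        set s := Real.sqrt (t / 2)
        have hs : s * s = t / 2 := Real.mul_self_sqrt (by linarith)
        have hs1 : 1 ≤ s := Real.one_le_sqrt.2 h
        rw [max_eq_left (by linarith : (0 : ℝ) ≤ t - 2), show t = 2 * (s * s) by linarith]
        have e2 : (1 / s - 1) ^ 2 * (2 * (s * s)) = 2 * (1 - s) ^ 2 := by field_simp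
        rw [e2]
        nlinarith
    calc ∑ j : Fin r × Fin P.n,
          ‖S.emb (mulA (funA g (V c P)) (v c j)) - T c j.1 (cell P j.2)‖ ^ 2
        ≤ ∑ j : Fin r × Fin P.n, (2 * ‖S.emb (mulA (funA g (V c P)) (v c j)) - S.emb (v c j)‖ ^ 2
            + 2 * ‖S.emb (v c j) - T c j.1 (cell P j.2)‖ ^ 2) := by
          refine Finset.sum_le_sum fun j _ => ?_
          set a := S.emb (mulA (funA g (V c P)) (v c j)) - S.emb (v c j)
          set b := S.emb (v c j) - T c j.1 (cell P j.2)
          rw [show S.emb (mulA (funA g (V c P)) (v c j)) - T c j.1 (cell P j.2) = a + b by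
            simp only [a, b]; abel]
          nlinarith [norm_add_le a b, norm_nonneg (a + b), sq_nonneg (‖a‖ - ‖b‖)]
      _ ≤ 2 * (5 * θ₁) + 2 * ((r : ℝ) * δ) := by
          rw [Finset.sum_add_distrib, ← Finset.mul_sum, ← Finset.mul_sum]
          linarith [hvd c, mul_le_mul_of_nonneg_left hmin hr]
      _ ≤ θ := by
          have := (le_div_iff₀ (by positivity : (0 : ℝ) < r + 1)).1
            (min_le_left (θ₁ / (r + 1)) _ : δ ≤ _)
          nlinarith

end Tracial

end Vale.Agent.P078.Tr
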