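import Vale.Agent.P078.Tr.Cov.Fields

/-! Rows and quadratic forms as operators of the calculus. -/

open Filter Topology
open scoped ComplexOrder InnerProductSpace

noncomputable section

namespace Vale.Agent.P078.Tr

universe u

variable {H : Type u} [NormedAddCommGroup H] [InnerProductSpace ℂ H] [CompleteSpace H]
  {S : Tracial H}

attribute [local instance] InnerProductSpace.complexToReal

namespace Tracial

open ContinuousLinearMap (adjoint)

variable (hB : Basics S)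

/-- The real part of `b ↦ E (X b Y)`. -/
def pairOp (X Y : S.M) : S.LOp :=
  (4⁻¹ : ℝ) • (S.elem hB (X + star Y) - S.elem hB (X - star Y))

lemma pairOp_mem (X Y : S.M) : pairOp hB X Y ∈ calc' hB :=
  Submodule.smul_mem _ _ (sub_mem (elem_mem_calc hB _) (elem_mem_calc hB _))

/-- The value of the real part of `b ↦ E (X b Y)`. -/
def pairVal (X Y : S.M) (a : S.saA) : S.saA :=
  (4⁻¹ : ℝ) • (S.elemFn hB (X + star Y) a - S.elemFn hB (X - star Y) a)

lemma pairOp_emb (X Y : S.M) (a : S.saA) :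
    pairOp hB X Y (S.emb a) = S.emb (pairVal hB X Y a) := by
  rw [pairOp, pairVal, smul_apply, sub_apply, elem_emb, elem_emb, ← map_sub, ← map_smul]

lemma coe_pairVal (X Y : S.M) (a : S.saA) :
    (pairVal hB X Y a : Op H) = (2⁻¹ : ℝ) • (S.E ((X : Op H) * a * (Y : Op H))
      + star (S.E ((X : Op H) * a * (Y : Op H)))) := by
  have hX : (X : Op H) ∈ S.M := X.2
  have hY : (Y : Op H) ∈ S.M := Y.2
  have ha := S.le _ a.2.1
  have h1 : (X : Op H) * a * (Y : Op H) ∈ S.M := mul_mem (mul_mem hX ha) hY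
  have hp : ((X : Op H) + star (Y : Op H)) * a * star ((X : Op H) + star (Y : Op H)) ∈ S.M :=
    mul_mem (mul_mem (add_mem hX (star_mem hY)) ha) (star_mem (add_mem hX (star_mem hY)))
  have hm : ((X : Op H) - star (Y : Op H)) * a * star ((X : Op H) - star (Y : Op H)) ∈ S.M :=
    mul_mem (mul_mem (sub_mem hX (star_mem hY)) ha) (star_mem (sub_mem hX (star_mem hY)))
  show (4⁻¹ : ℝ) • (S.E (((X : Op H) + star (Y : Op H)) * a * star ((X : Op H) + star (Y : Op H)))
    - S.E (((X : Op H) - star (Y : Op H)) * a * star ((X : Op H) - star (Y : Op H)))) = _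
  have hid : ((X : Op H) + star (Y : Op H)) * a * star ((X : Op H) + star (Y : Op H))
      = ((X : Op H) - star (Y : Op H)) * a * star ((X : Op H) - star (Y : Op H))
        + (2 : ℝ) • ((X : Op H) * a * (Y : Op H) + star ((X : Op H) * a * (Y : Op H))) := by
    simp only [star_add, star_sub, star_star, star_mul, a.2.2.star_eq, add_mul, mul_add, sub_mul,
      mul_sub, two_smul, mul_assoc]
    abel
  rw [hid, hB.E_add _ hm _ (smul_real_mem_M _ (add_mem h1 (star_mem h1))),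
    E_rsmul hB _ (add_mem h1 (star_mem h1)), hB.E_add _ h1 _ (star_mem h1), hB.E_star _ h1,
    add_sub_cancel_left, smul_smul]
  norm_num

lemma tr_mul_pairVal (X Y : S.M) (a : S.saA) :
    trA (mulA a (pairVal hB X Y a)) = S.tr ((X : Op H) * star (a : Op H) * (Y : Op H) * a) := by
  have hX : (X : Op H) ∈ S.M := X.2
  have hY : (Y : Op H) ∈ S.M := Y.2
  have ha := S.le _ a.2.1
  have hW : (X : Op H) * a * (Y : Op H) ∈ S.M := mul_mem (mul_mem hX ha) hY
  rw [trA, coe_mulA, coe_pairVal, mul_smul_comm, mul_add, S.tr_smul, S.tr_add]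
  have h2 : S.tr ((a : Op H) * star (S.E ((X : Op H) * a * (Y : Op H))))
      = S.tr ((a : Op H) * S.E ((X : Op H) * a * (Y : Op H))) := by
    rw [S.tr_comm ha (star_mem (E_mem_M hB hW)), ← S.tr_star, star_mul, star_star, a.2.2.star_eq]
  rw [h2, tr_mul_E hB hW a.2.1, a.2.2.star_eq, S.tr_comm ha hW]
  ring

/-- The operator of a row. -/
def rowOp (K : KMap S) : S.LOp :=
  (K.terms.attach.map fun t =>
    pairOp hB ⟨t.1.1, (K.mem t.1 t.2).1⟩ ⟨t.1.2, (K.mem t.1 t.2).2⟩).sum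

lemma rowOp_mem (K : KMap S) : rowOp hB K ∈ calc' hB := by
  refine list_sum_mem fun x hx => ?_
  obtain ⟨t, -, rfl⟩ := List.mem_map.1 hx
  exact pairOp_mem hB _ _

lemma rowOp_emb (K : KMap S) (a : S.saA) (hK : IsSelfAdjoint (K.apply a)) :
    (rowOp hB K (S.emb a) : Big H) = S.avec (K.apply a) := by
  have key : ∀ l : List {t // t ∈ K.terms},
      ((l.map fun t => pairOp hB ⟨t.1.1, (K.mem t.1 t.2).1⟩ ⟨t.1.2, (K.mem t.1 t.2).2⟩).sum
        (S.emb a) : Big H)
      = S.avec ((2⁻¹ : ℝ) • ((l.map fun t => S.E (t.1.1 * a * t.1.2)).sum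
        + star (l.map fun t => S.E (t.1.1 * a * t.1.2)).sum)) := by
    intro l
    induction l with
    | nil =>
      simp only [List.map_nil, List.sum_nil, star_zero, add_zero, smul_zero, map_zero,
        zero_apply]
      rfl
    | cons t l ih =>
      simp only [List.map_cons, List.sum_cons, add_apply, coe_add, pairOp_emb, coe_emb,
        coe_pairVal, ih, ← map_add]
      congr 1
      rw [← smul_add, star_add]
      congr 1
      abel
  rw [rowOp, key, List.attach_map_val (f := fun t : Op H × Op H => S.E (t.1 * a * t.2))]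
  congr 1
  change (2⁻¹ : ℝ) • (K.apply a + star (K.apply a)) = _
  rw [hK.star_eq, ← two_smul ℝ, smul_smul]
  norm_num

/-- The real part of an element of `A`. -/
def reA (x : Op H) (h : x ∈ S.A) : S.saA :=
  ⟨(2⁻¹ : ℝ) • (x + star x), S.rsmul_mem_A _ (add_mem h (star_mem h)),
    (IsSelfAdjoint.all _).smul (IsSelfAdjoint.add_star_self _)⟩

/-- The imaginary part of an element of `A`. -/
def imA (x : Op H) (h : x ∈ S.A) : S.saA :=
  ⟨(2⁻¹ : ℝ) • ((-Complex.I) • (x - star x)),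
    S.rsmul_mem_A _ (S.A.smul_mem (sub_mem h (star_mem h)) _), by
      rw [IsSelfAdjoint, star_smul, star_trivial, star_smul, star_sub, star_star,
        Complex.star_def, map_neg, Complex.conj_I]
      module⟩

/-- The operator of a term with two expectations. -/
def doubleOp (t : Op H × Op H × Op H × Op H × Op H) : S.LOp :=
  open Classical in
  if h : t.1 ∈ S.A ∧ t.2.1 ∈ S.M ∧ t.2.2.1 ∈ S.M ∧ t.2.2.2.1 ∈ S.M ∧ t.2.2.2.2 ∈ S.M then
    let X : S.M := ⟨t.2.1, h.2.1⟩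
    let Y : S.M := ⟨t.2.2.1, h.2.2.1⟩
    let X' : S.M := ⟨t.2.2.2.1, h.2.2.2.1⟩
    let Y' : S.M := ⟨t.2.2.2.2, h.2.2.2.2⟩
    let h1 : S.saA := reA t.1 h.1
    let h2 : S.saA := imA t.1 h.1
    let Xi : S.M := ⟨(-Complex.I) • t.2.1, S.smul_mem_M _ h.2.1⟩
    let Xi' : S.M := ⟨(-Complex.I) • t.2.2.2.1, S.smul_mem_M _ h.2.2.2.1⟩
    adjoint (pairOp hB X Y) * mulOp hB h1 * pairOp hB X' Y'
      - adjoint (pairOp hB Xi Y) * mulOp hB h1 * pairOp hB Xi' Y'
      - adjoint (pairOp hB X Y) * mulOp hB h2 * pairOp hB Xi' Y'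
      - adjoint (pairOp hB Xi Y) * mulOp hB h2 * pairOp hB X' Y'
  else 0

lemma doubleOp_mem (t : Op H × Op H × Op H × Op H × Op H) : doubleOp hB t ∈ calc' hB := by
  have hm : ∀ X Y X' Y' : S.M, ∀ a : S.saA,
      adjoint (pairOp hB X Y) * mulOp hB a * pairOp hB X' Y' ∈ calc' hB := fun _ _ _ _ _ =>
    mul_mem_calc (mul_mem_calc (adjoint_mem_calc (pairOp_mem hB _ _)) (mulOp_mem hB _))
      (pairOp_mem hB _ _)
  unfold doubleOp
  split_ifs
  · exact sub_mem (sub_mem (sub_mem (hm _ _ _ _ _) (hm _ _ _ _ _)) (hm _ _ _ _ _)) (hm _ _ _ _ _)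
  · exact zero_mem _

lemma eq_re_add_im (W : Op H) :
    W = (2⁻¹ : ℝ) • (W + star W) + Complex.I • ((2⁻¹ : ℝ) • ((-Complex.I) • (W - star W))) := by
  have e : ∀ v : Op H, (2⁻¹ : ℝ) • v = (2⁻¹ : ℂ) • v := fun v => by
    rw [← Complex.coe_smul]; norm_num
  rw [e, e, smul_smul, smul_smul,
    show Complex.I * 2⁻¹ * -Complex.I = 2⁻¹ by
      rw [mul_right_comm, mul_neg, Complex.I_mul_I]; ring]
  module

lemma re_tau_triple (h p q : S.saA) : S.tr (Complex.I • ((h : Op H) * p * q)) = 0 := by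
  have hs : IsSelfAdjoint ((h : Op H) * p * q) := (mulA (mulA h p) q).2.2
  have h' := congrArg Complex.im (S.tau_star ((h : Op H) * p * q))
  rw [hs.star_eq, Complex.conj_im] at h'
  rw [tr, S.tau_smul, Complex.mul_re, Complex.I_re, Complex.I_im, zero_mul, one_mul]
  linarith

lemma inner_doubleOp (t : Op H × Op H × Op H × Op H × Op H)
    (h : t.1 ∈ S.A ∧ t.2.1 ∈ S.M ∧ t.2.2.1 ∈ S.M ∧ t.2.2.2.1 ∈ S.M ∧ t.2.2.2.2 ∈ S.M)
    (a : S.saA) : ⟪S.emb a, doubleOp hB t (S.emb a)⟫_ℝ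
      = S.tr (t.1 * S.E (t.2.1 * star (a : Op H) * t.2.2.1)
        * S.E (t.2.2.2.1 * a * t.2.2.2.2)) := by
  have him : ∀ (X Y : S.M) (Xi : S.M), (Xi : Op H) = (-Complex.I) • (X : Op H) →
      S.E ((X : Op H) * a * (Y : Op H))
        = (pairVal hB X Y a : Op H) + Complex.I • (pairVal hB Xi Y a : Op H) := by
    intro X Y Xi hXi
    have hW : (X : Op H) * a * (Y : Op H) ∈ S.M := mul_mem (mul_mem X.2 (S.le _ a.2.1)) Y.2
    rw [coe_pairVal, coe_pairVal, hXi, smul_mul_assoc, smul_mul_assoc, hB.E_smul _ _ hW,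
      star_smul, Complex.star_def, map_neg, Complex.conj_I]
    conv_lhs => rw [eq_re_add_im (S.E ((X : Op H) * a * (Y : Op H)))]
    rw [show (-Complex.I) • S.E ((X : Op H) * a * (Y : Op H))
        + (- -Complex.I) • star (S.E ((X : Op H) * a * (Y : Op H)))
      = (-Complex.I) • (S.E ((X : Op H) * a * (Y : Op H))
        - star (S.E ((X : Op H) * a * (Y : Op H)))) by module]
  obtain ⟨hh, hX, hY, hX', hY'⟩ := h
  rw [doubleOp, dif_pos ⟨hh, hX, hY, hX', hY'⟩]
  simp only [sub_apply, inner_sub_right, mul_apply_eq_comp, ContinuousLinearMap.adjoint_inner_right,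
    pairOp_emb, mulOp_emb, inner_emb', a.2.2.star_eq]
  rw [him ⟨t.2.1, hX⟩ ⟨t.2.2.1, hY⟩ ⟨(-Complex.I) • t.2.1, S.smul_mem_M _ hX⟩ rfl,
    him ⟨t.2.2.2.1, hX'⟩ ⟨t.2.2.2.2, hY'⟩ ⟨(-Complex.I) • t.2.2.2.1, S.smul_mem_M _ hX'⟩ rfl]
  set P₁ := pairVal hB ⟨t.2.1, hX⟩ ⟨t.2.2.1, hY⟩ a
  set P₂ := pairVal hB ⟨(-Complex.I) • t.2.1, S.smul_mem_M _ hX⟩ ⟨t.2.2.1, hY⟩ a
  set Q₁ := pairVal hB ⟨t.2.2.2.1, hX'⟩ ⟨t.2.2.2.2, hY'⟩ a
  set Q₂ := pairVal hB ⟨(-Complex.I) • t.2.2.2.1, S.smul_mem_M _ hX'⟩ ⟨t.2.2.2.2, hY'⟩ a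
  set a₁ : S.saA := reA t.1 hh
  set a₂ : S.saA := imA t.1 hh
  conv_rhs => rw [eq_re_add_im t.1]
  change _ = S.tr (((a₁ : Op H) + Complex.I • (a₂ : Op H)) * ((P₁ : Op H) + Complex.I • (P₂ : Op H))
    * ((Q₁ : Op H) + Complex.I • (Q₂ : Op H)))
  have e : ∀ p h q : S.saA, trA (mulA p (mulA h q)) = S.tr ((h : Op H) * p * q) := fun p h q => by
    rw [trA, coe_mulA, coe_mulA, ← mul_assoc, S.comm _ p.2.1 _ h.2.1]
  have hI : ∀ x : Op H, Complex.I • Complex.I • x = -x := fun x => by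
    rw [smul_smul, Complex.I_mul_I, neg_one_smul]
  simp only [add_mul, mul_add, smul_mul_assoc, mul_smul_comm, smul_add, hI, S.tr_add, smul_neg,
    neg_mul,
    S.tr_neg, re_tau_triple, e]
  ring

/-- The operator of a form. -/
def formOp (Φ : QForm S) : S.LOp :=
  (Φ.simple.attach.map fun t =>
    pairOp hB ⟨t.1.1, (Φ.simple_mem t.1 t.2).1⟩ ⟨t.1.2, (Φ.simple_mem t.1 t.2).2⟩).sum
  + (Φ.double.map (doubleOp hB)).sum

lemma formOp_mem (Φ : QForm S) : formOp hB Φ ∈ calc' hB := by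
  refine add_mem (list_sum_mem fun x hx => ?_) (list_sum_mem fun x hx => ?_)
  · obtain ⟨t, -, rfl⟩ := List.mem_map.1 hx
    exact pairOp_mem hB _ _
  · obtain ⟨t, -, rfl⟩ := List.mem_map.1 hx
    exact doubleOp_mem hB _

lemma inner_formOp (Φ : QForm S) (a : S.saA) :
    ⟪S.emb a, formOp hB Φ (S.emb a)⟫_ℝ = Φ.eval (a : Op H) := by
  have h1 : ∀ l : List {t // t ∈ Φ.simple},
      ⟪S.emb a, (l.map fun t => pairOp hB ⟨t.1.1, (Φ.simple_mem t.1 t.2).1⟩
        ⟨t.1.2, (Φ.simple_mem t.1 t.2).2⟩).sum (S.emb a)⟫_ℝ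
      = (l.map fun t => S.tr (t.1.1 * star (a : Op H) * t.1.2 * a)).sum := by
    intro l
    induction l with
    | nil => simp
    | cons t l ih =>
      simp only [List.map_cons, List.sum_cons, add_apply, inner_add_right, ih, pairOp_emb,
        inner_emb', tr_mul_pairVal]
  have h2 : ∀ l : List (Op H × Op H × Op H × Op H × Op H), (∀ t ∈ l, t ∈ Φ.double) →
      ⟪S.emb a, (l.map (doubleOp hB)).sum (S.emb a)⟫_ℝ
      = (l.map fun t => S.tr (t.1 * S.E (t.2.1 * star (a : Op H) * t.2.2.1)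
          * S.E (t.2.2.2.1 * a * t.2.2.2.2))).sum := by
    intro l hl
    induction l with
    | nil => simp
    | cons t l ih =>
      simp only [List.map_cons, List.sum_cons, add_apply, inner_add_right,
        ih fun s hs => hl s (List.mem_cons_of_mem _ hs)]
      rw [inner_doubleOp hB t (Φ.double_mem t (hl t (List.mem_cons_self ..)))]
  rw [formOp, add_apply, inner_add_right, h1, h2 _ fun _ h => h,
    List.attach_map_val (f := fun t : Op H × Op H => S.tr (t.1 * star (a : Op H) * t.2 * a))]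
  rfl

lemma formOp_nonneg (Φ : QForm S) (h : ∀ b ∈ S.A, 0 ≤ Φ.eval b) (v : S.L2) :
    0 ≤ ⟪v, formOp hB Φ v⟫_ℝ := by
  induction v using S.denseRange_emb.induction_on with
  | hp => exact isClosed_le continuous_const (by fun_prop)
  | ih a => rw [inner_formOp]; exact h _ a.2.1

end Tracial

end Vale.Agent.P078.Tr
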