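import Vale.Agent.P078.Tr.Cov.Soft

/-! The Gram operator of a weighted row, its soft inverse and the leverage of each coordinate. -/

open Filter Topology
open scoped ComplexOrder InnerProductSpace

noncomputable section

namespace Vale.Agent.P078.Tr

universe u

variable {H : Type u} [NormedAddCommGroup H] [InnerProductSpace ℂ H] [CompleteSpace H]
  {S : Tracial H}

attribute [local instance] InnerProductSpace.complexToReal

namespace Tracial

open ContinuousLinearMap (adjoint)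

variable (hB : Basics S) {r : ℕ} (R : Fin r → S.LOp)

/-- `∑ R D R*`. -/
def gram (D : Fin r → S.saA) : S.LOp := ∑ c, R c * mulOp hB (D c) * adjoint (R c)

open scoped Classical in
/-- Its soft inverse. -/
def soft (γ : ℝ) (D : Fin r → S.saA) : S.LOp :=
  if h : 0 < γ ∧ gram hB R D ∈ calc' hB ∧ adjoint (gram hB R D) = gram hB R D ∧
      ∀ v, 0 ≤ ⟪v, gram hB R D v⟫_ℝ
  then Classical.choose (exists_soft hB h.1 h.2.1 h.2.2.1 h.2.2.2) else 0

/-- The leverage of a coordinate, without its weight. -/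
def lever (γ : ℝ) (D : Fin r → S.saA) (c : Fin r) : S.saA :=
  diag hB (adjoint (R c) * soft hB R γ D * R c)

variable {hB R} {γ : ℝ} {D D' : Fin r → S.saA}

lemma gram_mem (hR : ∀ c, R c ∈ calc' hB) : gram hB R D ∈ calc' hB := sum_mem fun c _ =>
  mul_mem_calc (mul_mem_calc (hR c) (mulOp_mem hB _)) (adjoint_mem_calc (hR c))

lemma adjoint_gram : adjoint (gram hB R D) = gram hB R D := by
  simp only [gram, adj_sum, adj_mul, adj_adj, adjoint_mulOp, mul_assoc]

lemma gram_form (v : S.L2) : ⟪v, gram hB R D v⟫_ℝ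
    = ∑ c, ⟪adjoint (R c) v, mulOp hB (D c) (adjoint (R c) v)⟫_ℝ := by
  simp only [gram, sum_apply, inner_sum, mul_apply_eq_comp]
  exact Finset.sum_congr rfl fun c _ => (ContinuousLinearMap.adjoint_inner_left _ _ _).symm

lemma gram_nonneg (hD : ∀ c χ, 0 ≤ val χ (D c)) (v : S.L2) : 0 ≤ ⟪v, gram hB R D v⟫_ℝ := by
  rw [gram_form]; exact Finset.sum_nonneg fun c _ => inner_mulOp_nonneg hB (hD c) _

lemma gram_mono (h : ∀ c χ, val χ (D' c) ≤ val χ (D c)) (v : S.L2) :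
    ⟪v, gram hB R D' v⟫_ℝ ≤ ⟪v, gram hB R D v⟫_ℝ := by
  rw [gram_form, gram_form]; exact Finset.sum_le_sum fun c _ => inner_mulOp_mono hB (h c) _

lemma sum_gram (X Z : S.LOp) :
    ∑ d, X * R d * mulOp hB (D d) * (adjoint (R d) * Z) = X * gram hB R D * Z := by
  simp only [gram, Finset.mul_sum, Finset.sum_mul, mul_assoc]

/-- What is used of the soft inverse. -/
structure SoftSpec (hB : Basics S) (R : Fin r → S.LOp) (γ : ℝ) (D : Fin r → S.saA)
    (N : S.LOp) : Prop where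
  mem : N ∈ calc' hB
  symm : adjoint N = N
  left : N * (γ • 1 + gram hB R D) = 1
  right : (γ • 1 + gram hB R D) * N = 1
  nonneg : ∀ v, 0 ≤ ⟪v, N v⟫_ℝ
  le : ∀ v, ⟪v, N v⟫_ℝ ≤ (1 / γ) * ‖v‖ ^ 2

lemma soft_spec (hR : ∀ c, R c ∈ calc' hB) (hγ : 0 < γ) (hD : ∀ c χ, 0 ≤ val χ (D c)) :
    SoftSpec hB R γ D (soft hB R γ D) := by
  have h : 0 < γ ∧ gram hB R D ∈ calc' hB ∧ adjoint (gram hB R D) = gram hB R D ∧
      ∀ v, 0 ≤ ⟪v, gram hB R D v⟫_ℝ := ⟨hγ, gram_mem hR, adjoint_gram, gram_nonneg hD⟩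
  rw [soft, dif_pos h]
  obtain ⟨h1, h2, h3, h4, h5, h6⟩ :=
    Classical.choose_spec (exists_soft hB h.1 h.2.1 h.2.2.1 h.2.2.2)
  exact ⟨h1, h2, h3, h4, h5, h6⟩

lemma lever_form (c : Fin r) (N : S.LOp) (v : S.L2) :
    ⟪v, (adjoint (R c) * N * R c) v⟫_ℝ = ⟪R c v, N (R c v)⟫_ℝ := by
  simp only [mul_apply_eq_comp]
  exact ContinuousLinearMap.adjoint_inner_right _ _ _

lemma lever_mem (hR : ∀ c, R c ∈ calc' hB) (hγ : 0 < γ) (hD : ∀ c χ, 0 ≤ val χ (D c))
    (c : Fin r) : adjoint (R c) * soft hB R γ D * R c ∈ calc' hB :=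
  mul_mem_calc (mul_mem_calc (adjoint_mem_calc (hR c)) (soft_spec hR hγ hD).mem) (hR c)

lemma lever_nonneg (hR : ∀ c, R c ∈ calc' hB) (hγ : 0 < γ) (hD : ∀ c χ, 0 ≤ val χ (D c))
    (c : Fin r) (χ : S.Chi) : 0 ≤ val χ (lever hB R γ D c) :=
  diag_nonneg hB (lever_mem hR hγ hD c)
    (fun v => by rw [lever_form]; exact (soft_spec hR hγ hD).nonneg _) χ

lemma lever_le (hR : ∀ c, R c ∈ calc' hB) (hγ : 0 < γ) (hD : ∀ c χ, 0 ≤ val χ (D c))
    (c : Fin r) (χ : S.Chi) : val χ (lever hB R γ D c) ≤ (1 / γ) * ∑ c, ‖R c‖ ^ 2 := by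
  refine (le_abs_self _).trans ((abs_val_diag hB (lever_mem hR hγ hD c) χ).trans ?_)
  refine norm_le_of_form (by positivity) ?_ (fun v => ?_) fun v => ?_
  · rw [adj_mul, adj_mul, adj_adj, (soft_spec hR hγ hD).symm, mul_assoc]
  · rw [lever_form]; exact (soft_spec hR hγ hD).nonneg _
  · rw [lever_form, mul_assoc]
    refine ((soft_spec hR hγ hD).le _).trans (mul_le_mul_of_nonneg_left ?_ (by positivity))
    refine (pow_le_pow_left₀ (norm_nonneg _) ((R c).le_opNorm v) 2).trans ?_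
    rw [mul_pow]
    exact mul_le_mul_of_nonneg_right (Finset.single_le_sum (f := fun c => ‖R c‖ ^ 2)
      (fun i _ => sq_nonneg _) (Finset.mem_univ c)) (sq_nonneg _)

lemma lever_antitone (hR : ∀ c, R c ∈ calc' hB) (hγ : 0 < γ) (hD' : ∀ c χ, 0 ≤ val χ (D' c))
    (h : ∀ c χ, val χ (D' c) ≤ val χ (D c)) (c : Fin r) (χ : S.Chi) :
    val χ (lever hB R γ D c) ≤ val χ (lever hB R γ D' c) := by
  have hD : ∀ c χ, 0 ≤ val χ (D c) := fun c χ => (hD' c χ).trans (h c χ)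
  refine diag_mono hB (lever_mem hR hγ hD c) (lever_mem hR hγ hD' c) (fun v => ?_) χ
  rw [lever_form, lever_form]
  exact soft_antitone hγ adjoint_gram (gram_nonneg hD') (gram_mono h)
    (soft_spec hR hγ hD).right (soft_spec hR hγ hD').right _

end Tracial

end Vale.Agent.P078.Tr
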