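import Vale.Agent.P078.Tr.Cov.Pinch
import Vale.Agent.P078.Tr.Basics.Closed

/-! The maps `b ↦ E (z b z*)` on `L²(A)`, and the symmetry of the atomic part of their kernels. -/

open Filter Topology
open scoped ComplexOrder InnerProductSpace

noncomputable section

namespace Vale.Agent.P078.Tr

universe u

variable {H : Type u} [NormedAddCommGroup H] [InnerProductSpace ℂ H] [CompleteSpace H]
  {S : Tracial H}

attribute [local instance] InnerProductSpace.complexToReal

namespace Tracial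

/-- Products of positive elements have positive trace. -/
lemma tr_mul_nonneg {x y : Op H} (hx : x ∈ S.M) (hy : y ∈ S.M) (h : 0 ≤ x) (h' : 0 ≤ y) :
    0 ≤ S.tr (x * y) := by
  have hs := S.sqrt_mem_M hx
  rw [← CFC.sqrt_mul_sqrt_self x h, mul_assoc, S.tr_comm hs (mul_mem hs hy)]
  refine S.tr_nonneg ?_
  have h1 := star_left_conjugate_nonneg h' (CFC.sqrt x)
  rwa [(CFC.sqrt_nonneg x).isSelfAdjoint.star_eq] at h1

/-- Cauchy-Schwarz for the expectation. -/
lemma ev_E_sq_le (hB : Basics S) (χ : S.Chi) {u v : Op H} (hu : u ∈ S.M) (hv : v ∈ S.M) :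
    S.ev χ (star (S.E (star u * v)) * S.E (star u * v))
      ≤ S.ev χ (S.E (star u * u)) * S.ev χ (S.E (star v * v)) := by
  set γ := S.evC χ (S.E (star u * v)) with hγ
  set α := S.ev χ (S.E (star u * u))
  set β := S.ev χ (S.E (star v * v))
  have mM : ∀ {x y : Op H}, x ∈ S.M → y ∈ S.M → star x * y ∈ S.M := fun hx hy =>
    mul_mem (star_mem hx) hy
  have mA : ∀ {x y : Op H}, x ∈ S.M → y ∈ S.M → S.E (star x * y) ∈ S.A := fun hx hy =>
    hB.E_mem _ (mM hx hy)
  have hl : S.ev χ (star (S.E (star u * v)) * S.E (star u * v)) = ‖γ‖ ^ 2 := by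
    rw [ev, evC_mul (star_mem (mA hu hv)) (mA hu hv), evC_star (mA hu hv), ← hγ, mul_comm,
      Complex.mul_conj', ← Complex.ofReal_pow, Complex.ofReal_re]
  have hα : 0 ≤ α := by
    refine (nonneg_iff (mA hu hu) ?_).1 (hB.E_nonneg _ (mM hu hu) (star_mul_self_nonneg u)) χ
    exact E_isSelfAdjoint hB (mM hu hu) (IsSelfAdjoint.star_mul_self u)
  have hβ : 0 ≤ β := by
    refine (nonneg_iff (mA hv hv) ?_).1 (hB.E_nonneg _ (mM hv hv) (star_mul_self_nonneg v)) χ
    exact E_isSelfAdjoint hB (mM hv hv) (IsSelfAdjoint.star_mul_self v)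
  have hvu : S.evC χ (S.E (star v * u)) = starRingEnd ℂ γ := by
    rw [show star v * u = star (star u * v) by rw [star_mul, star_star],
      hB.E_star _ (mM hu hv), evC_star (mA hu hv)]
  rw [hl]
  refine le_of_forall_pos_le_add fun η hη => ?_
  set a := α + η / (β + 1) with ha
  have ha0 : 0 < a := by positivity
  set c : ℂ := γ / a with hc
  have hw : v - c • u ∈ S.M := sub_mem hv (S.smul_mem_M c hu)
  have key : 0 ≤ β - 2 * ‖γ‖ ^ 2 / a + α * ‖γ‖ ^ 2 / a ^ 2 := by
    have h0 : 0 ≤ S.ev χ (S.E (star (v - c • u) * (v - c • u))) :=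
      (nonneg_iff (mA hw hw) (E_isSelfAdjoint hB (mM hw hw) (IsSelfAdjoint.star_mul_self _))).1
        (hB.E_nonneg _ (mM hw hw) (star_mul_self_nonneg _)) χ
    have he : star (v - c • u) * (v - c • u) = star v * v + (-c) • (star v * u)
        + ((-(starRingEnd ℂ c)) • (star u * v) + (starRingEnd ℂ c * c) • (star u * u)) := by
      rw [star_sub, star_smul, Complex.star_def]
      simp only [sub_mul, mul_sub, smul_mul_assoc, mul_smul_comm, smul_sub, smul_smul, neg_smul,
        mul_comm c (starRingEnd ℂ c)]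
      abel
    have m1 := S.smul_mem_M (-c) (mM hv hu)
    have m2 := S.smul_mem_M (-(starRingEnd ℂ c)) (mM hu hv)
    have m3 := S.smul_mem_M (starRingEnd ℂ c * c) (mM hu hu)
    rw [he, hB.E_add _ (add_mem (mM hv hv) m1) _ (add_mem m2 m3), hB.E_add _ (mM hv hv) _ m1,
      hB.E_add _ m2 _ m3, hB.E_smul _ _ (mM hv hu), hB.E_smul _ _ (mM hu hv),
      hB.E_smul _ _ (mM hu hu)] at h0
    have a1 := mA hv hv
    have a2 := S.A.smul_mem (mA hv hu) (-c)
    have a3 := S.A.smul_mem (mA hu hv) (-(starRingEnd ℂ c))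
    have a4 := S.A.smul_mem (mA hu hu) (starRingEnd ℂ c * c)
    rw [ev, evC_add (add_mem a1 a2) (add_mem a3 a4), evC_add a1 a2, evC_add a3 a4,
      evC_smul _ (mA hv hu), evC_smul _ (mA hu hv), evC_smul _ (mA hu hu), hvu, ← hγ] at h0
    refine h0.trans_eq ?_
    simp only [Complex.add_re, neg_mul, Complex.neg_re, Complex.conj_mul', ← Complex.ofReal_pow,
      Complex.re_ofReal_mul]
    have e1 : (c * starRingEnd ℂ γ).re = ‖γ‖ ^ 2 / a := by
      rw [hc, div_mul_eq_mul_div, Complex.mul_conj', ← Complex.ofReal_pow, ← Complex.ofReal_div,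
        Complex.ofReal_re]
    have e2 : (starRingEnd ℂ c * γ).re = ‖γ‖ ^ 2 / a := by
      rw [← Complex.conj_re, map_mul, Complex.conj_conj, e1]
    have e3 : ‖c‖ ^ 2 = ‖γ‖ ^ 2 / a ^ 2 := by
      rw [hc, norm_div, Complex.norm_real, Real.norm_eq_abs, abs_of_pos ha0, div_pow]
    rw [e1, e2, e3]
    show β + _ + (_ + _ * α) = _
    ring
  have h2 : α * ‖γ‖ ^ 2 / a ^ 2 ≤ ‖γ‖ ^ 2 / a := by
    rw [div_le_div_iff₀ (by positivity) ha0]
    nlinarith [mul_nonneg (mul_nonneg (sq_nonneg ‖γ‖) ha0.le) (show 0 ≤ a - α by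
      rw [ha, add_sub_cancel_left]; positivity)]
  have h3 : ‖γ‖ ^ 2 ≤ β * a := by
    rw [← div_le_iff₀ ha0]
    have : 2 * ‖γ‖ ^ 2 / a = ‖γ‖ ^ 2 / a + ‖γ‖ ^ 2 / a := by ring
    linarith
  refine h3.trans ?_
  rw [ha, mul_add, mul_comm β α]
  have : β * (η / (β + 1)) ≤ η := by
    rw [mul_div_assoc', div_le_iff₀ (by linarith)]
    nlinarith
  linarith

/-- `b ↦ E (z b z*)` on the self-adjoint part of `A`. -/
def elemFn (hB : Basics S) (z : S.M) : S.saA →ₗ[ℝ] S.saA where
  toFun a := ⟨S.E ((z : Op H) * a * star (z : Op H)),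
    hB.E_mem _ (mul_mem (mul_mem z.2 (S.le _ a.2.1)) (star_mem z.2)),
    E_isSelfAdjoint hB (mul_mem (mul_mem z.2 (S.le _ a.2.1)) (star_mem z.2)) (a.2.2.conjugate _)⟩
  map_add' a b := Subtype.ext (by
    simp only [Submodule.coe_add, mul_add, add_mul]
    exact hB.E_add _ (mul_mem (mul_mem z.2 (S.le _ a.2.1)) (star_mem z.2)) _
      (mul_mem (mul_mem z.2 (S.le _ b.2.1)) (star_mem z.2)))
  map_smul' c a := Subtype.ext (by
    simp only [Submodule.coe_smul, mul_smul_comm, smul_mul_assoc, RingHom.id_apply]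
    exact E_rsmul hB c (mul_mem (mul_mem z.2 (S.le _ a.2.1)) (star_mem z.2)))

lemma norm_avec_conj_le {z b : Op H} (hz : z ∈ S.M) (hb : b ∈ S.M) :
    ‖S.avec (z * b * star z)‖ ≤ ‖z‖ ^ 2 * ‖S.avec b‖ := by
  refine (S.norm_avec_mul_le_right (mul_mem hz hb) (star_mem hz)).trans ?_
  rw [norm_star, sq, mul_assoc, mul_comm ‖z‖ ‖S.avec b‖, ← mul_assoc]
  exact mul_le_mul_of_nonneg_right (S.norm_avec_mul_le z b) (norm_nonneg _)

/-- `b ↦ E (z b z*)` on `L²(A)`. -/
def elem (hB : Basics S) (z : S.M) : S.LOp := S.lift (S.elemFn hB z)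

lemma elem_emb (hB : Basics S) (z : S.M) (a : S.saA) :
    S.elem hB z (S.emb a) = S.emb (S.elemFn hB z a) := by
  refine S.lift_emb (f := S.elemFn hB z) (C := ‖(z : Op H)‖ ^ 2) (fun b => ?_) a
  rw [norm_emb, norm_emb]
  exact (norm_E_le hB (mul_mem (mul_mem z.2 (S.le _ b.2.1)) (star_mem z.2))).trans
    (norm_avec_conj_le z.2 (S.le _ b.2.1))

lemma coe_elem_emb (hB : Basics S) (z : S.M) (a : S.saA) :
    (S.elem hB z (S.emb a) : Big H) = S.avec (S.E ((z : Op H) * a * star (z : Op H))) := by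
  rw [elem_emb]; rfl

lemma adjoint_elem (hB : Basics S) (z : S.M) :
    ContinuousLinearMap.adjoint (S.elem hB z) = S.elem hB (star z) := by
  refine S.adjoint_eq fun a b => ?_
  rw [elem_emb, elem_emb, inner_emb, inner_emb]
  show S.tr (S.E (((star z : S.M) : Op H) * (a : Op H) * star ((star z : S.M) : Op H)) * (b : Op H))
    = S.tr ((a : Op H) * S.E ((z : Op H) * (b : Op H) * star (z : Op H)))
  have hz : (z : Op H) ∈ S.M := z.2
  have ha := S.le _ a.2.1
  have hb := S.le _ b.2.1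
  rw [show ((star z : S.M) : Op H) = star (z : Op H) from rfl, star_star]
  have h1 : star (z : Op H) * (a : Op H) * (z : Op H) ∈ S.M :=
    mul_mem (mul_mem (star_mem hz) ha) hz
  rw [S.tr_comm (E_mem_M hB h1) hb, tr_mul_E hB h1 b.2.1,
    tr_mul_E hB (mul_mem (mul_mem hz hb) (star_mem hz)) a.2.1,
    show (b : Op H) * (star (z : Op H) * (a : Op H) * (z : Op H))
      = ((b : Op H) * star (z : Op H)) * ((a : Op H) * (z : Op H)) by simp only [mul_assoc],
    S.tr_comm (mul_mem hb (star_mem hz)) (mul_mem ha hz)]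
  simp only [mul_assoc]

/-- A piece of a partition, in `L²(A)`. -/
def cell (P : Part S) (i : Fin P.n) : S.L2 :=
  S.emb ⟨P.p i, P.mem i, (P.proj i).isSelfAdjoint⟩

/-- The squared Hilbert-Schmidt sum of an operator over the pieces. -/
def sq (T : S.LOp) (P : Part S) : ℝ := ∑ i, ‖T (cell P i)‖ ^ 2

lemma sq_nonneg' (T : S.LOp) (P : Part S) : 0 ≤ sq T P :=
  Finset.sum_nonneg fun _ _ => sq_nonneg _

section Q

variable {n : ℕ} (z : Fin n → S.M)

/-- `b ↦ ∑ z b z*`. -/
def raw (b : Op H) : Op H := ∑ l, (z l : Op H) * b * star (z l : Op H)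

lemma raw_mem {b : Op H} (hb : b ∈ S.M) : raw z b ∈ S.M :=
  sum_mem fun l _ => mul_mem (mul_mem (z l).2 hb) (star_mem (z l).2)

lemma raw_nonneg {b : Op H} (hb : 0 ≤ b) : 0 ≤ raw z b :=
  Finset.sum_nonneg fun _ _ => star_right_conjugate_nonneg hb _

lemma raw_sum {ι : Type*} (s : Finset ι) (f : ι → Op H) :
    raw z (∑ i ∈ s, f i) = ∑ i ∈ s, raw z (f i) := by
  simp only [raw, Finset.mul_sum, Finset.sum_mul]
  rw [Finset.sum_comm]

/-- `b ↦ E (∑ z b z*)`. -/
def pos (hB : Basics S) : S.LOp := ∑ l, S.elem hB (z l)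

lemma coe_pos_cell (hB : Basics S) (P : Part S) (i : Fin P.n) :
    (pos z hB (cell P i) : Big H) = S.avec (S.E (raw z (P.p i))) := by
  rw [raw, E_sum hB _ _ fun l _ => mul_mem (mul_mem (z l).2 (P.mem_M i)) (star_mem (z l).2),
    map_sum, pos, sum_apply, coe_sum]
  exact Finset.sum_congr rfl fun l _ => coe_elem_emb hB _ _

lemma sq_pos (hB : Basics S) (P : Part S) :
    sq (pos z hB) P = ∑ i, ‖S.avec (S.E (raw z (P.p i)))‖ ^ 2 := by
  refine Finset.sum_congr rfl fun i _ => ?_
  rw [← coe_pos_cell z hB P i]; rfl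

/-- The pinched Hilbert-Schmidt sum. -/
def qsum (a b : Part S) : ℝ := ∑ j, ‖S.avec (a.pinch (raw z (b.p j)))‖ ^ 2

lemma qsum_mono_left {a a' : Part S} (h : a'.Refines a) (b : Part S) :
    qsum z a' b ≤ qsum z a b :=
  Finset.sum_le_sum fun j _ =>
    pow_le_pow_left₀ (norm_nonneg _) (h.norm_avec_pinch_le (raw_mem z (b.mem_M j))) 2

lemma qsum_mono_right (a : Part S) {b b' : Part S} (h : b'.Refines b) :
    qsum z a b' ≤ qsum z a b := by
  have hsplit : ∀ i, b.p i = ∑ j, b.p i * b'.p j := fun i => by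
    rw [← Finset.mul_sum, b'.sum_eq, mul_one]
  let w : Fin b.n → Fin b'.n → Op H := fun i j => a.pinch (raw z (b.p i * b'.p j))
  have hM : ∀ i j, b.p i * b'.p j ∈ S.M := fun i j => mul_mem (b.mem_M i) (b'.mem_M j)
  have hwM : ∀ i j, w i j ∈ S.M := fun i j => a.pinch_mem (raw_mem z (hM i j))
  have hw0 : ∀ i j, 0 ≤ w i j := by
    intro i j
    refine Finset.sum_nonneg fun k _ => ?_
    have hp : 0 ≤ b.p i * b'.p j :=
      ((b.proj i).mul (b'.proj j) (S.comm _ (b.mem i) _ (b'.mem j))).nonneg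
    have h1 := star_left_conjugate_nonneg (raw_nonneg z hp) (a.p k)
    rwa [a.star_p] at h1
  have e1 : qsum z a b = ∑ i, ‖∑ j, S.avec (w i j)‖ ^ 2 := by
    refine Finset.sum_congr rfl fun i _ => ?_
    rw [← map_sum]
    congr 3
    conv_lhs => rw [hsplit i, raw_sum]
    exact map_sum a.pinchₗ _ _
  have e2 : qsum z a b' = ∑ j, ∑ i, ‖S.avec (w i j)‖ ^ 2 := by
    refine Finset.sum_congr rfl fun j _ => ?_
    obtain ⟨k, hk⟩ := h j
    rw [Finset.sum_eq_single k]
    · show _ = ‖S.avec (a.pinch (raw z (b.p k * b'.p j)))‖ ^ 2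
      rw [hk]
    · intro i _ hik
      show ‖S.avec (a.pinch (raw z (b.p i * b'.p j)))‖ ^ 2 = 0
      rw [← hk, ← mul_assoc, b.orth i k hik, zero_mul]
      simp [raw, Part.pinch]
    · exact fun h' => absurd (Finset.mem_univ k) h'
  rw [e1, e2, Finset.sum_comm]
  refine Finset.sum_le_sum fun i _ => ?_
  rw [← real_inner_self_eq_norm_sq, sum_inner]
  refine Finset.sum_le_sum fun j _ => ?_
  rw [inner_sum, ← real_inner_self_eq_norm_sq]
  refine Finset.single_le_sum (f := fun j' => ⟪S.avec (w i j), S.avec (w i j')⟫_ℝ)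
    (fun j' _ => ?_) (Finset.mem_univ j)
  rw [inner_avec_real, (IsSelfAdjoint.of_nonneg (hw0 i j)).star_eq]
  exact tr_mul_nonneg (hwM i j) (hwM i j') (hw0 i j) (hw0 i j')

variable (hB : Basics S)
include hB

lemma tendsto_qsum_left (b : Part S) :
    Tendsto (fun a => qsum z a b) (fine S) (𝓝 (sq (pos z hB) b)) := by
  rw [sq_pos]
  exact tendsto_finsetSum _ fun j _ => tendsto_normSq_pinch hB (raw_mem z (b.mem_M j))

lemma sq_pos_le_qsum (a b : Part S) : sq (pos z hB) b ≤ qsum z a b := by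
  rw [sq_pos]
  refine Finset.sum_le_sum fun j _ => pow_le_pow_left₀ (norm_nonneg _) ?_ 2
  rw [← E_pinch hB a (raw_mem z (b.mem_M j))]
  exact norm_E_le hB (a.pinch_mem (raw_mem z (b.mem_M j)))

lemma sq_pos_mono {b b' : Part S} (h : b'.Refines b) : sq (pos z hB) b' ≤ sq (pos z hB) b :=
  le_of_tendsto_of_tendsto' (tendsto_qsum_left z hB b') (tendsto_qsum_left z hB b)
    fun a => qsum_mono_right z a h

lemma bddBelow_sq_pos : BddBelow (Set.range (sq (pos z hB))) :=
  ⟨0, by rintro _ ⟨P, rfl⟩; exact sq_nonneg' _ _⟩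

/-- Pinching in the other order bounds the sum by the one of the transposed map. -/
lemma exists_qsum_le (a : Part S) {η : ℝ} (hη : 0 < η) :
    ∃ b, qsum z a b ≤ sq (pos (fun l => star (z l)) hB) a + η := by
  let Y : Fin a.n → Fin n → Fin n → Op H := fun i l l' =>
    star (z l : Op H) * a.p i * (z l' : Op H)
  have hY : ∀ i l l', Y i l l' ∈ S.M := fun i l l' =>
    mul_mem (mul_mem (star_mem (z l).2) (a.mem_M i)) (z l').2
  -- the sum as a sum of traces
  have e1 : ∀ b : Part S,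
      qsum z a b = ∑ i, ∑ l, ∑ l', ‖S.avec (b.pinch (Y i l l'))‖ ^ 2 := by
    intro b
    calc qsum z a b = ∑ j, ∑ i, ∑ l, ∑ l',
          S.tr ((z l : Op H) * b.p j * star (z l : Op H) * a.p i *
            ((z l' : Op H) * b.p j * star (z l' : Op H)) * a.p i) := by
          refine Finset.sum_congr rfl fun j _ => ?_
          have hr := raw_mem z (b.mem_M j)
          rw [a.normSq_pinch hr,
            (IsSelfAdjoint.of_nonneg (raw_nonneg z (b.proj j).nonneg)).star_eq, Part.pinch,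
            Finset.mul_sum, S.tr_sum]
          refine Finset.sum_congr rfl fun i _ => ?_
          rw [raw, Finset.mul_sum, Finset.sum_mul]
          simp only [Finset.mul_sum, Finset.sum_mul]
          rw [S.tr_sum]
          refine Finset.sum_congr rfl fun l _ => ?_
          rw [S.tr_sum]
          exact Finset.sum_congr rfl fun l' _ => by simp only [mul_assoc]
      _ = ∑ i, ∑ l, ∑ l', ∑ j, S.tr (b.p j * Y i l l' * b.p j * star (Y i l l')) := by
          rw [Finset.sum_comm]
          refine Finset.sum_congr rfl fun i _ => ?_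
          rw [Finset.sum_comm]
          refine Finset.sum_congr rfl fun l _ => ?_
          rw [Finset.sum_comm]
          refine Finset.sum_congr rfl fun l' _ => Finset.sum_congr rfl fun j _ => ?_
          have hs : star (Y i l l') = star (z l' : Op H) * a.p i * (z l : Op H) := by
            simp only [Y, star_mul, star_star, a.star_p, mul_assoc]
          rw [show (z l : Op H) * b.p j * star (z l : Op H) * a.p i *
              ((z l' : Op H) * b.p j * star (z l' : Op H)) * a.p i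
            = (z l : Op H) * (b.p j * Y i l l' * b.p j * (star (z l' : Op H) * a.p i)) by
              simp only [Y, mul_assoc],
            S.tr_comm (z l).2 (mul_mem (mul_mem (mul_mem (b.mem_M j) (hY i l l')) (b.mem_M j))
              (mul_mem (star_mem (z l').2) (a.mem_M i))), hs]
          simp only [mul_assoc]
      _ = _ := by
          refine Finset.sum_congr rfl fun i _ => Finset.sum_congr rfl fun l _ =>
            Finset.sum_congr rfl fun l' _ => ?_
          rw [← S.tr_sum, ← Finset.sum_mul, b.normSq_pinch (hY i l l')]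
          exact S.tr_comm (b.pinch_mem (hY i l l')) (star_mem (hY i l l'))
  -- its limit
  have h2 : Tendsto (fun b => qsum z a b) (fine S)
      (𝓝 (∑ i, ∑ l, ∑ l', ‖S.avec (S.E (Y i l l'))‖ ^ 2)) := by
    simp only [e1]
    exact tendsto_finsetSum _ fun i _ => tendsto_finsetSum _ fun l _ =>
      tendsto_finsetSum _ fun l' _ => tendsto_normSq_pinch hB (hY i l l')
  -- Cauchy-Schwarz
  have h3 : ∑ i, ∑ l, ∑ l', ‖S.avec (S.E (Y i l l'))‖ ^ 2
      ≤ sq (pos (fun l => star (z l)) hB) a := by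
    rw [sq_pos]
    refine Finset.sum_le_sum fun i _ => ?_
    set R := S.E (raw (fun l => star (z l)) (a.p i)) with hR
    have hrM := raw_mem (fun l => star (z l)) (a.mem_M i)
    have hRA : R ∈ S.A := hB.E_mem _ hrM
    have hRs : IsSelfAdjoint R := E_isSelfAdjoint hB hrM
      (IsSelfAdjoint.of_nonneg (raw_nonneg _ (a.proj i).nonneg))
    rw [S.normSq_avec R]
    simp only [S.normSq_avec (S.E (Y i _ _)), ← S.tr_sum]
    refine S.tr_mono ((le_iff (sum_mem fun l _ => sum_mem fun l' _ => mul_mem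
      (star_mem (hB.E_mem _ (hY i l l'))) (hB.E_mem _ (hY i l l'))) (mul_mem (star_mem hRA) hRA)
      (isSelfAdjoint_sum _ fun l _ => isSelfAdjoint_sum _ fun l' _ => IsSelfAdjoint.star_mul_self _)
      (IsSelfAdjoint.star_mul_self _)).2 fun χ => ?_)
    have hu : ∀ l, a.p i * (z l : Op H) ∈ S.M := fun l => mul_mem (a.mem_M i) (z l).2
    have hY' : ∀ l l', Y i l l' = star (a.p i * (z l : Op H)) * (a.p i * (z l' : Op H)) :=
      fun l l' => by
        rw [star_mul, a.star_p, mul_assoc, ← mul_assoc (a.p i), a.mul_self, ← mul_assoc]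
    have hRev : S.ev χ (star R * R) = S.ev χ R * S.ev χ R := by
      rw [hRs.star_eq, ev_mul hRA hRA hRs]
    have hRsum : S.ev χ R = ∑ l, S.ev χ (S.E (Y i l l)) := by
      rw [hR]
      show S.ev χ (S.E (∑ l, star (z l : Op H) * a.p i * star (star (z l : Op H)))) = _
      rw [E_sum hB _ _ fun l _ =>
        mul_mem (mul_mem (star_mem (z l).2) (a.mem_M i)) (star_mem (star_mem (z l).2)),
        ev_sum _ _ fun l _ => hB.E_mem _
          (mul_mem (mul_mem (star_mem (z l).2) (a.mem_M i)) (star_mem (star_mem (z l).2)))]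
      refine Finset.sum_congr rfl fun l _ => ?_
      show S.ev χ (S.E (star (z l : Op H) * a.p i * star (star (z l : Op H)))) = _
      rw [star_star]
    rw [hRev, hRsum, Finset.sum_mul_sum, ev_sum _ _ fun l _ => sum_mem fun l' _ =>
      mul_mem (star_mem (hB.E_mem _ (hY i l l'))) (hB.E_mem _ (hY i l l'))]
    refine Finset.sum_le_sum fun l _ => ?_
    rw [ev_sum _ _ fun l' _ => mul_mem (star_mem (hB.E_mem _ (hY i l l')))
      (hB.E_mem _ (hY i l l'))]
    refine Finset.sum_le_sum fun l' _ => ?_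
    rw [hY' l l', hY' l l, hY' l' l']
    exact ev_E_sq_le hB χ (hu l) (hu l')
  obtain ⟨b, hb⟩ := (h2.eventually (eventually_lt_nhds (lt_add_of_pos_right _ hη))).exists
  exact ⟨b, by linarith⟩

/-- The atomic part of a kernel and of its transpose have the same mass. -/
lemma iInf_sq_pos_symm :
    ⨅ P, sq (pos z hB) P = ⨅ P, sq (pos (fun l => star (z l)) hB) P := by
  have key : ∀ (w : Fin n → S.M),
      ⨅ P, sq (pos w hB) P ≤ ⨅ P, sq (pos (fun l => star (w l)) hB) P := by
    intro w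
    have : Nonempty (Part S) := ⟨Part.one S⟩
    refine le_ciInf fun a => le_of_forall_pos_le_add fun η hη => ?_
    obtain ⟨b, hb⟩ := exists_qsum_le w hB a hη
    exact ((ciInf_le (bddBelow_sq_pos w hB) b).trans (sq_pos_le_qsum w hB a b)).trans hb
  refine le_antisymm (key z) ?_
  simpa only [star_star] using key fun l => star (z l)

lemma tendsto_sq_pos : Tendsto (sq (pos z hB)) (fine S) (𝓝 (⨅ P, sq (pos z hB) P)) :=
  tendsto_fine_ciInf (fun _ _ h => sq_pos_mono z hB h) (bddBelow_sq_pos z hB)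

/-- Fine pinchings of a map are close to the map after the expectation, uniformly in fine cells. -/
lemma eventually_pinch_raw {η : ℝ} (hη : 0 < η) :
    ∀ᶠ a in fine S, ∀ᶠ b in fine S,
      ∑ j, ‖S.avec (a.pinch (raw z (b.p j))) - S.avec (S.E (raw z (b.p j)))‖ ^ 2 ≤ η := by
  have : Nonempty (Part S) := ⟨Part.one S⟩
  set L := ⨅ P, sq (pos z hB) P
  obtain ⟨b₀, hb₀⟩ := exists_lt_of_ciInf_lt (lt_add_of_pos_right L (half_pos hη))
  obtain ⟨a₀, ha₀⟩ := ((tendsto_qsum_left z hB b₀).eventually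
    (eventually_lt_nhds (lt_add_of_pos_right _ (half_pos hη)))).exists
  filter_upwards [eventually_refines a₀] with a ha
  filter_upwards [eventually_refines b₀] with b hb
  have e : ∑ j, ‖S.avec (a.pinch (raw z (b.p j))) - S.avec (S.E (raw z (b.p j)))‖ ^ 2
      = qsum z a b - sq (pos z hB) b := by
    rw [sq_pos, qsum, ← Finset.sum_sub_distrib]
    exact Finset.sum_congr rfl fun j _ => normSq_pinch_sub_E hB a (raw_mem z (b.mem_M j))
  have h1 := (qsum_mono_left z ha b).trans (qsum_mono_right z a₀ hb)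
  have h2 : L ≤ sq (pos z hB) b := ciInf_le (bddBelow_sq_pos z hB) b
  rw [e]
  linarith

end Q

end Tracial

end Vale.Agent.P078.Tr
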