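import Vale.Agent.P078.Tr.Cov.Part
import Vale.Agent.P078.Tr.Basics.Dense
import Vale.Agent.P078.Tr.Basics.Trace
import Vale.Agent.P078.Tr.Char

/-! The real Hilbert space of self-adjoint elements of `A`, inside `ℓ²(ℕ, H)`. -/

open Filter Topology
open scoped ComplexOrder InnerProductSpace ENNReal

noncomputable section

namespace Vale.Agent.P078.Tr

universe u

variable {H : Type u} [NormedAddCommGroup H] [InnerProductSpace ℂ H] [CompleteSpace H]

attribute [local instance] InnerProductSpace.complexToReal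

namespace Tracial

variable (S : Tracial H)

/-- `ℓ²(ℕ, H)`, where the vectors of the operators live. -/
abbrev Big (H : Type u) [NormedAddCommGroup H] : Type u := lp (fun _ : ℕ => H) 2

lemma summable_normSq : Summable fun k => ‖S.vec k‖ ^ 2 := S.norm_one.summable

lemma memℓp_apply (x : Op H) : Memℓp (fun k => x (S.vec k)) 2 := by
  refine memℓp_gen ?_
  refine (S.summable_normSq.mul_left (‖x‖ ^ 2)).of_nonneg_of_le (fun k => by positivity) fun k => ?_
  rw [ENNReal.toReal_ofNat, Real.rpow_two, ← mul_pow]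
  exact pow_le_pow_left₀ (norm_nonneg _) (x.le_opNorm _) 2

/-- The vector of an operator. -/
def avec : Op H →ₗ[ℂ] Big H where
  toFun x := ⟨fun k => x (S.vec k), S.memℓp_apply x⟩
  map_add' x y := by ext k; rfl
  map_smul' c x := by ext k; rfl

@[simp] lemma avec_apply (x : Op H) (k : ℕ) : S.avec x k = x (S.vec k) := rfl

lemma inner_avec (x y : Op H) : ⟪S.avec x, S.avec y⟫_ℂ = S.tau (star x * y) := by
  rw [lp.inner_eq_tsum, tau]
  refine tsum_congr fun k => ?_
  rw [avec_apply, avec_apply, mul_apply_eq_comp, ContinuousLinearMap.star_eq_adjoint,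
    ContinuousLinearMap.adjoint_inner_right]

lemma inner_avec_real (x y : Op H) : ⟪S.avec x, S.avec y⟫_ℝ = S.tr (star x * y) := by
  rw [tr, ← inner_avec]
  rfl

lemma normSq_avec (x : Op H) : ‖S.avec x‖ ^ 2 = S.tr (star x * x) := by
  rw [← real_inner_self_eq_norm_sq, inner_avec_real]

lemma norm_avec_mul_le (x y : Op H) : ‖S.avec (x * y)‖ ≤ ‖x‖ * ‖S.avec y‖ := by
  refine lp.norm_le_of_forall_sum_le (p := 2) (by norm_num) (by positivity) fun s => ?_
  simp only [ENNReal.toReal_ofNat, Real.rpow_two, avec_apply, mul_apply_eq_comp]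
  refine (Finset.sum_le_sum fun k _ => pow_le_pow_left₀ (norm_nonneg _) (x.le_opNorm _) 2).trans ?_
  simp only [mul_pow, ← Finset.mul_sum]
  refine mul_le_mul_of_nonneg_left ?_ (sq_nonneg _)
  have := lp.sum_rpow_le_norm_rpow (p := 2) (by norm_num) (S.avec y) s
  simpa using this

lemma abs_tr_star_mul_le (x y : Op H) :
    |S.tr (star x * y)| ≤ ‖S.avec x‖ * ‖S.avec y‖ := by
  rw [← inner_avec_real]; exact abs_real_inner_le_norm _ _

lemma norm_avec_one : ‖S.avec 1‖ = 1 := by
  refine (sq_eq_sq₀ (norm_nonneg _) zero_le_one).1 ?_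
  rw [normSq_avec, star_one, one_mul, tr_one, one_pow]

lemma norm_avec_le (x : Op H) : ‖S.avec x‖ ≤ ‖x‖ := by
  simpa [norm_avec_one] using S.norm_avec_mul_le x 1

lemma norm_avec_star {x : Op H} (hx : x ∈ S.M) : ‖S.avec (star x)‖ = ‖S.avec x‖ := by
  refine (sq_eq_sq₀ (norm_nonneg _) (norm_nonneg _)).1 ?_
  rw [normSq_avec, normSq_avec, star_star, S.tr_comm hx (star_mem hx)]

lemma norm_avec_mul_le_right {x y : Op H} (hx : x ∈ S.M) (hy : y ∈ S.M) :
    ‖S.avec (x * y)‖ ≤ ‖S.avec x‖ * ‖y‖ := by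
  rw [← S.norm_avec_star (mul_mem hx hy), star_mul, mul_comm, ← S.norm_avec_star hx, ← norm_star y]
  exact S.norm_avec_mul_le _ _

lemma avec_injective {x : Op H} (hx : x ∈ S.M) (h : S.avec x = 0) : x = 0 :=
  S.separating x hx fun k => by rw [← S.avec_apply, h]; rfl

/-- The self-adjoint elements of `A`. -/
def saA : Submodule ℝ (Op H) where
  carrier := {a | a ∈ S.A ∧ IsSelfAdjoint a}
  add_mem' h h' := ⟨add_mem h.1 h'.1, h.2.add h'.2⟩
  zero_mem' := ⟨zero_mem _, .zero _⟩
  smul_mem' c a h := ⟨by rw [← Complex.coe_smul]; exact S.A.smul_mem h.1 _,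
    (IsSelfAdjoint.all c).smul h.2⟩

/-- The closure of the vectors of the self-adjoint part of `A`. -/
abbrev L2sub : Submodule ℝ (Big H) :=
  (S.saA.map (S.avec.restrictScalars ℝ)).topologicalClosure

/-- The real Hilbert space `L²(A)`. It is a type of its own, so that the operators on it have only
one family of instances. -/
def L2 : Type u := ↥S.L2sub

instance : NormedAddCommGroup S.L2 := inferInstanceAs (NormedAddCommGroup ↥S.L2sub)

instance : InnerProductSpace ℝ S.L2 :=
  fast_instance% (Submodule.innerProductSpace S.L2sub : InnerProductSpace ℝ ↥S.L2sub)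

instance : CompleteSpace S.L2 :=
  (S.saA.map (S.avec.restrictScalars ℝ)).isClosed_topologicalClosure.completeSpace_coe

instance : CoeOut S.L2 (Big H) := ⟨fun v => (v : ↥S.L2sub).1⟩

lemma coe_add (v w : S.L2) : ((v + w : S.L2) : Big H) = (v : Big H) + (w : Big H) := rfl

lemma coe_sub (v w : S.L2) : ((v - w : S.L2) : Big H) = (v : Big H) - (w : Big H) := rfl

lemma coe_smul (c : ℝ) (v : S.L2) : ((c • v : S.L2) : Big H) = c • (v : Big H) := rfl

lemma coe_sum {ι : Type*} (s : Finset ι) (f : ι → S.L2) :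
    ((∑ i ∈ s, f i : S.L2) : Big H) = ∑ i ∈ s, (f i : Big H) :=
  map_sum (AddMonoidHom.mk' (fun v : S.L2 => (v : Big H)) fun _ _ => rfl) f s

@[fun_prop]
lemma continuous_coe : Continuous fun v : S.L2 => (v : Big H) := continuous_subtype_val

lemma L2_ext {v w : S.L2} (h : (v : Big H) = (w : Big H)) : v = w := Subtype.ext h

/-- The vector of a self-adjoint element of `A`. -/
def emb : S.saA →ₗ[ℝ] S.L2 where
  toFun a := (⟨S.avec (a : Op H), Submodule.le_topologicalClosure _ ⟨a, a.2, rfl⟩⟩ : ↥S.L2sub)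
  map_add' a b := S.L2_ext (map_add S.avec (a : Op H) b)
  map_smul' c a := S.L2_ext ((S.avec.restrictScalars ℝ).map_smul c (a : Op H))

@[simp] lemma coe_emb (a : S.saA) : (S.emb a : Big H) = S.avec (a : Op H) := rfl

lemma denseRange_emb : DenseRange S.emb := by
  intro v
  refine (closure_subtype (x := (v : ↥S.L2sub))).2 ?_
  have hv : (v : Big H) ∈ closure (((S.saA.map (S.avec.restrictScalars ℝ)) :
      Submodule ℝ (Big H)) : Set (Big H)) := v.2
  refine closure_mono ?_ hv
  rintro _ ⟨a, ha, rfl⟩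
  exact ⟨S.emb ⟨a, ha⟩, ⟨⟨a, ha⟩, rfl⟩, rfl⟩

lemma inner_emb (a b : S.saA) : ⟪S.emb a, S.emb b⟫_ℝ = S.tr ((a : Op H) * b) := by
  rw [show ⟪S.emb a, S.emb b⟫_ℝ = ⟪S.avec (a : Op H), S.avec (b : Op H)⟫_ℝ from rfl,
    inner_avec_real, a.2.2.star_eq]

lemma norm_emb (a : S.saA) : ‖S.emb a‖ = ‖S.avec (a : Op H)‖ := rfl

lemma normSq_emb (a : S.saA) : ‖S.emb a‖ ^ 2 = S.tr ((a : Op H) * a) := by
  rw [← real_inner_self_eq_norm_sq, inner_emb]

/-- Bounded operators on `L²(A)`. -/
abbrev LOp : Type u := S.L2 →L[ℝ] S.L2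

/-- The operator with the values `f a` at `a`. -/
def lift (f : S.saA →ₗ[ℝ] S.saA) : S.LOp := (S.emb.comp f).extendOfNorm S.emb

lemma lift_emb {f : S.saA →ₗ[ℝ] S.saA} {C : ℝ}
    (h : ∀ a, ‖S.emb (f a)‖ ≤ C * ‖S.emb a‖) (a : S.saA) :
    S.lift f (S.emb a) = S.emb (f a) :=
  LinearMap.extendOfNorm_eq S.denseRange_emb ⟨C, h⟩ a

/-- Two operators agreeing on the vectors of `A` are equal. -/
lemma LOp_ext {T T' : S.LOp} (h : ∀ a, T (S.emb a) = T' (S.emb a)) : T = T' := by
  ext1 v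
  exact congrFun (S.denseRange_emb.equalizer T.continuous T'.continuous (funext h)) v

/-- Operators with transposed matrices are adjoint. -/
lemma adjoint_eq {T T' : S.LOp}
    (h : ∀ a b, ⟪T (S.emb a), S.emb b⟫_ℝ = ⟪S.emb a, T' (S.emb b)⟫_ℝ) :
    ContinuousLinearMap.adjoint T' = T := by
  refine ((ContinuousLinearMap.eq_adjoint_iff T T').2 fun v w => ?_).symm
  refine congrFun (S.denseRange_emb.equalizer (g := fun v => ⟪v, T' w⟫_ℝ)
    (h := fun v => ⟪T v, w⟫_ℝ) ?_ ?_ (funext fun a => ?_)).symm v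
  · fun_prop
  · fun_prop
  refine congrFun (S.denseRange_emb.equalizer (g := fun w => ⟪S.emb a, T' w⟫_ℝ)
    (h := fun w => ⟪T (S.emb a), w⟫_ℝ) ?_ ?_ (funext fun b => ?_)) w
  · fun_prop
  · fun_prop
  · exact (h a b).symm

end Tracial

end Vale.Agent.P078.Tr
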