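import Vale.Agent.P078.Tr.Cov.Reweight

/-! The covariance `D^{1/2} (1 - Π)² D^{1/2}` of the reweighted row. -/

open Filter Topology
open scoped ComplexOrder InnerProductSpace

noncomputable section

namespace Vale.Agent.P078.Tr

universe u

variable {H : Type u} [NormedAddCommGroup H] [InnerProductSpace ℂ H] [CompleteSpace H]
  {S : Tracial H}

attribute [local instance] InnerProductSpace.complexToReal

namespace Tracial

open ContinuousLinearMap (adjoint)

variable {hB : Basics S} {r : ℕ} {R : Fin r → S.LOp} {γ : ℝ} {D : Fin r → S.saA} {N : S.LOp}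

/-- `D R* N`. -/
def side (hB : Basics S) (R : Fin r → S.LOp) (D : Fin r → S.saA) (N : S.LOp) (c : Fin r) :
    S.LOp :=
  mulOp hB (D c) * adjoint (R c) * N

/-- `D R* N R D`. -/
def core (hB : Basics S) (R : Fin r → S.LOp) (D : Fin r → S.saA) (N : S.LOp) (c : Fin r) :
    S.LOp :=
  side hB R D N c * R c * mulOp hB (D c)

/-- The root of the covariance. -/
def root (hB : Basics S) (R : Fin r → S.LOp) (D : Fin r → S.saA) (N : S.LOp) (c d : Fin r) :
    S.LOp :=
  (if c = d then mulOp hB (funA Real.sqrt (D c)) else 0)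
    - side hB R D N c * R d * mulOp hB (funA Real.sqrt (D d))

/-- What the covariance lacks, as squares. -/
def defect (hB : Basics S) (R : Fin r → S.LOp) (D : Fin r → S.saA) (γ : ℝ) (N : S.LOp)
    (c : Fin r) : Option (Fin r) → S.LOp
  | none => Real.sqrt (2 * γ) • (N * R c * mulOp hB (D c))
  | some d => mulOp hB (funA Real.sqrt (D d)) * adjoint (R d) * N * R c * mulOp hB (D c)

lemma sqrt_mul_sqrt_op (hD : ∀ c χ, 0 ≤ val χ (D c)) (d : Fin r) :
    mulOp hB (funA Real.sqrt (D d)) * mulOp hB (funA Real.sqrt (D d)) = mulOp hB (D d) := by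
  rw [mulOp_mul, mulA_sqrt (hD d)]

lemma adjoint_side (hN : SoftSpec hB R γ D N) (c : Fin r) :
    adjoint (side hB R D N c) = N * (R c * mulOp hB (D c)) := by
  simp only [side, adj_mul, adjoint_mulOp, adj_adj, hN.symm]

lemma side_mem (hR : ∀ c, R c ∈ calc' hB) (hN : SoftSpec hB R γ D N) (c : Fin r) :
    side hB R D N c ∈ calc' hB :=
  mul_mem_calc (mul_mem_calc (mulOp_mem hB _) (adjoint_mem_calc (hR c))) hN.mem

lemma root_mem (hR : ∀ c, R c ∈ calc' hB) (hN : SoftSpec hB R γ D N) (c d : Fin r) :
    root hB R D N c d ∈ calc' hB := by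
  refine sub_mem ?_ (mul_mem_calc (mul_mem_calc (side_mem hR hN c) (hR d)) (mulOp_mem hB _))
  split_ifs
  · exact mulOp_mem hB _
  · exact zero_mem _

lemma defect_mem (hR : ∀ c, R c ∈ calc' hB) (hN : SoftSpec hB R γ D N) (c : Fin r)
    (i : Option (Fin r)) : defect hB R D γ N c i ∈ calc' hB := by
  cases i with
  | none =>
    exact Submodule.smul_mem _ _ (mul_mem_calc (mul_mem_calc hN.mem (hR c)) (mulOp_mem hB _))
  | some d =>
    exact mul_mem_calc (mul_mem_calc (mul_mem_calc (mul_mem_calc (mulOp_mem hB _)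
      (adjoint_mem_calc (hR d))) hN.mem) (hR c)) (mulOp_mem hB _)

lemma sum_root (hD : ∀ c χ, 0 ≤ val χ (D c)) (hN : SoftSpec hB R γ D N) (c : Fin r) :
    ∑ d, root hB R D N c d * adjoint (root hB R D N c d)
      = mulOp hB (D c) - (2 : ℝ) • core hB R D N c
        + side hB R D N c * gram hB R D * adjoint (side hB R D N c) := by
  set G := side hB R D N c with hG
  have hZ : adjoint (core hB R D N c) = core hB R D N c := by
    simp only [core, side, adj_mul, adjoint_mulOp, adj_adj, hN.symm, mul_assoc]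
  have hsd : ∀ d, ∀ X X' : S.LOp,
      X * mulOp hB (funA Real.sqrt (D d)) * (mulOp hB (funA Real.sqrt (D d)) * X')
        = X * mulOp hB (D d) * X' := fun d X X' => by
    rw [← sqrt_mul_sqrt_op hD d]; simp only [mul_assoc]
  have e : ∀ d, root hB R D N c d * adjoint (root hB R D N c d)
      = (if c = d then mulOp hB (D c) - core hB R D N c - core hB R D N c else 0)
        + G * R d * mulOp hB (D d) * (adjoint (R d) * adjoint G) := by
    intro d
    by_cases hcd : c = d
    · subst hcd
      simp only [root, if_true, adj_sub, adj_mul, adjoint_mulOp, ← hG, sub_mul, mul_sub]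
      rw [hsd, sqrt_mul_sqrt_op hD,
        show G * R c * mulOp hB (funA Real.sqrt (D c)) * mulOp hB (funA Real.sqrt (D c))
          = core hB R D N c by rw [mul_assoc, sqrt_mul_sqrt_op hD]; rfl,
        show mulOp hB (funA Real.sqrt (D c))
            * (mulOp hB (funA Real.sqrt (D c)) * (adjoint (R c) * adjoint G))
          = core hB R D N c by
          rw [← mul_assoc, sqrt_mul_sqrt_op hD]
          conv_rhs => rw [← hZ]
          simp only [core, ← hG, adj_mul, adjoint_mulOp]]
      abel
    · simp only [root, if_neg hcd, zero_sub, map_neg, adj_mul, adjoint_mulOp, ← hG, neg_mul_neg,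
        zero_add]
      exact hsd d _ _
  rw [Finset.sum_congr rfl fun d _ => e d, Finset.sum_add_distrib, sum_gram, Finset.sum_ite_eq,
    if_pos (Finset.mem_univ c), two_smul, sub_sub]

lemma side_gram_side (hN : SoftSpec hB R γ D N) (c : Fin r) :
    side hB R D N c * gram hB R D * adjoint (side hB R D N c)
      = core hB R D N c - γ • (side hB R D N c * adjoint (side hB R D N c)) := by
  have h : N * gram hB R D = 1 - γ • N := by
    have := hN.left
    rw [mul_add, mul_smul_comm, mul_one] at this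
    rw [← this]; abel
  calc side hB R D N c * gram hB R D * adjoint (side hB R D N c)
      = mulOp hB (D c) * adjoint (R c) * (N * gram hB R D * N) * (R c * mulOp hB (D c)) := by
        rw [adjoint_side hN]; simp only [side, mul_assoc]
    _ = _ := by
        rw [h, sub_mul, one_mul, smul_mul_assoc, adjoint_side hN]
        simp only [side, core, mul_sub, sub_mul, mul_smul_comm, smul_mul_assoc, mul_assoc]

lemma sum_defect (hγ : 0 ≤ γ) (hD : ∀ c χ, 0 ≤ val χ (D c)) (hN : SoftSpec hB R γ D N)
    (c : Fin r) : ∑ i, adjoint (defect hB R D γ N c i) * defect hB R D γ N c i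
      = (2 * γ) • (side hB R D N c * adjoint (side hB R D N c))
        + side hB R D N c * gram hB R D * adjoint (side hB R D N c) := by
  rw [Fintype.sum_option]
  congr 1
  · simp only [defect, adj_smul, adj_mul, adjoint_mulOp, adj_adj, hN.symm, side,
      smul_mul_smul_comm, Real.mul_self_sqrt (show 0 ≤ 2 * γ by positivity), mul_assoc]
  · rw [← sum_gram]
    refine Finset.sum_congr rfl fun d _ => ?_
    simp only [defect, adj_mul, adjoint_mulOp, adj_adj, hN.symm, side]
    rw [← sqrt_mul_sqrt_op hD d]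
    simp only [mul_assoc]

lemma root_add_defect (hγ : 0 ≤ γ) (hD : ∀ c χ, 0 ≤ val χ (D c)) (hN : SoftSpec hB R γ D N)
    (c : Fin r) : ∑ d, root hB R D N c d * adjoint (root hB R D N c d)
      + ∑ i, adjoint (defect hB R D γ N c i) * defect hB R D γ N c i = mulOp hB (D c) := by
  rw [sum_root hD hN, sum_defect hγ hD hN, side_gram_side hN]
  module

/-- The defect has a diagonal at most twice the leverage. -/
lemma defect_diag (hγ : 0 < γ) (hR : ∀ c, R c ∈ calc' hB) (hD : ∀ c χ, 0 ≤ val χ (D c))
    (hN : SoftSpec hB R γ D N) (c : Fin r) (h : S.saA) (hh : ∀ χ, 0 ≤ val χ h) :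
    ∑ i, ell (mulOp hB h * (adjoint (defect hB R D γ N c i) * defect hB R D γ N c i))
      ≤ 2 * trA (mulA (mulA (mulA (D c) h) (D c)) (diag hB (adjoint (R c) * N * R c))) := by
  have hdm := defect_mem hR hN c
  have hQ : adjoint (R c) * N * R c ∈ calc' hB :=
    mul_mem_calc (mul_mem_calc (adjoint_mem_calc (hR c)) hN.mem) (hR c)
  have hsm := side_mem hR hN c
  have hGG := mul_mem_calc hsm (adjoint_mem_calc hsm)
  have hZm : core hB R D N c ∈ calc' hB := mul_mem_calc (mul_mem_calc hsm (hR c)) (mulOp_mem hB _)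
  rw [← ell_sum _ _ fun i _ => mul_mem_calc (mulOp_mem hB h)
    (mul_mem_calc (adjoint_mem_calc (hdm i)) (hdm i)), ← Finset.mul_sum, sum_defect hγ.le hD hN,
    side_gram_side hN]
  refine (ell_mulOp_mono hB hh (add_mem (Submodule.smul_mem _ _ hGG)
    (sub_mem hZm (Submodule.smul_mem _ _ hGG))) (Submodule.smul_mem _ (2 : ℝ) hZm)
    fun v => ?_).trans (le_of_eq ?_)
  · simp only [add_apply, sub_apply, smul_apply, inner_add_right, inner_sub_right,
      inner_smul_right]
    set w := R c (mulOp hB (D c) v)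
    have e1 : ⟪v, core hB R D N c v⟫_ℝ = ⟪w, N w⟫_ℝ := by
      simp only [core, side, w, mul_apply_eq_comp]
      rw [← inner_symm' (adjoint_mulOp hB (D c)), ContinuousLinearMap.adjoint_inner_right]
    have e2 : ⟪v, (side hB R D N c * adjoint (side hB R D N c)) v⟫_ℝ = ‖N w‖ ^ 2 := by
      rw [mul_apply_eq_comp, ← ContinuousLinearMap.adjoint_inner_left,
        real_inner_self_eq_norm_sq, adjoint_side hN]
      rfl
    have h2 : ⟪N w, (γ • (1 : S.LOp) + gram hB R D) (N w)⟫_ℝ = ⟪w, N w⟫_ℝ := by
      show ⟪N w, ((γ • (1 : S.LOp) + gram hB R D) * N) w⟫_ℝ = _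
      rw [hN.right, one_apply_eq_self, real_inner_comm]
    rw [add_apply, smul_apply, one_apply_eq_self, inner_add_right, inner_smul_right,
      real_inner_self_eq_norm_sq] at h2
    rw [e1, e2]
    nlinarith [gram_nonneg (hB := hB) (R := R) hD (N w)]
  · rw [mul_smul_comm, ell_smul _ (mul_mem_calc (mulOp_mem hB h) hZm),
      ← ell_mulOp hB hQ, ← mulOp_mul, ← mulOp_mul]
    congr 1
    have e : mulOp hB h * core hB R D N c
        = mulOp hB h * mulOp hB (D c) * (adjoint (R c) * N * R c) * mulOp hB (D c) := by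
      simp only [core, side, mul_assoc]
    rw [e, ell_mul_comm (mul_mem_calc (mul_mem_calc (mulOp_mem hB h) (mulOp_mem hB _)) hQ)
      (mulOp_mem hB (D c))]
    simp only [mul_assoc]

/-- The total leverage is at most the trace of the support. -/
lemma total_lever (hγ : 0 < γ) (hR : ∀ c, R c ∈ calc' hB) {act : S.saA}
    (hact : mulA act act = act) (hsupp : ∀ c, mulOp hB act * R c = R c)
    (hN : SoftSpec hB R γ D N) :
    ∑ c, trA (mulA (D c) (diag hB (adjoint (R c) * N * R c))) ≤ trA act := by
  set P := mulOp hB act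
  set Y := gram hB R D
  have hYm : Y ∈ calc' hB := gram_mem hR
  have hPY : P * Y = Y := by simp only [P, Y, gram, Finset.mul_sum, ← mul_assoc, hsupp]
  have hYP : Y * P = Y := by
    have := congrArg adjoint hPY
    rwa [adj_mul, adjoint_mulOp, adjoint_gram] at this
  have hPN : P * N = N * P := by
    have hc : P * (γ • 1 + Y) = (γ • 1 + Y) * P := by
      rw [mul_add, add_mul, hPY, hYP, mul_smul_comm, smul_mul_assoc, mul_one, one_mul]
    calc P * N = N * (γ • 1 + Y) * (P * N) := by rw [hN.left, one_mul]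
      _ = N * ((γ • 1 + Y) * P) * N := by simp only [mul_assoc]
      _ = N * P * ((γ • 1 + Y) * N) := by rw [← hc]; simp only [mul_assoc]
      _ = N * P := by rw [hN.right, mul_one]
  have hNY : N * Y = 1 - γ • N := by
    have := hN.left
    rw [mul_add, mul_smul_comm, mul_one] at this
    rw [← this]; abel
  calc ∑ c, trA (mulA (D c) (diag hB (adjoint (R c) * N * R c)))
      = ell (N * Y) := by
        rw [show N * Y = ∑ c, N * (R c * mulOp hB (D c) * adjoint (R c)) from Finset.mul_sum ..,
          ell_sum _ _ fun c _ => mul_mem_calc hN.mem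
            (mul_mem_calc (mul_mem_calc (hR c) (mulOp_mem hB _)) (adjoint_mem_calc (hR c)))]
        refine Finset.sum_congr rfl fun c _ => ?_
        have hQ : adjoint (R c) * N * R c ∈ calc' hB :=
          mul_mem_calc (mul_mem_calc (adjoint_mem_calc (hR c)) hN.mem) (hR c)
        rw [← ell_mulOp hB hQ, ← mul_assoc N, ← mul_assoc N,
          ell_mul_comm (mul_mem_calc (mul_mem_calc hN.mem (hR c)) (mulOp_mem hB _))
            (adjoint_mem_calc (hR c)), ell_mul_comm (mulOp_mem hB (D c)) hQ]
        simp only [← mul_assoc]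
    _ ≤ ell P := by
        refine ell_mono (mul_mem_calc hN.mem hYm) (mulOp_mem hB act) fun v => ?_
        have e : N * Y = P - γ • (P * N * P) := by
          have h1 : P * (N * Y) * P = N * Y := by
            rw [← mul_assoc, hPN, mul_assoc N, hPY, mul_assoc, hYP]
          rw [← h1, hNY, mul_sub, mul_one, sub_mul, mulOp_mul, hact, mul_smul_comm,
            smul_mul_assoc]
        rw [e, sub_apply, smul_apply, inner_sub_right, inner_smul_right, mul_apply_eq_comp,
          mul_apply_eq_comp]
        have : 0 ≤ ⟪v, P (N (P v))⟫_ℝ := by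
          rw [← inner_symm' (adjoint_mulOp hB act)]; exact hN.nonneg _
        nlinarith
    _ = trA act := ell_mulOp_self hB act

/-- The row nearly kills the root. -/
lemma root_residual (hγ : 0 < γ) (hR : ∀ c, R c ∈ calc' hB) (hD : ∀ c χ, 0 ≤ val χ (D c))
    (hN : SoftSpec hB R γ D N) :
    ∑ d, ell (adjoint (∑ c, R c * root hB R D N c d) * ∑ c, R c * root hB R D N c d) ≤ γ := by
  set Y := gram hB R D
  have hYm : Y ∈ calc' hB := gram_mem hR
  have hNY : N * Y = 1 - γ • N := by
    have := hN.left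
    rw [mul_add, mul_smul_comm, mul_one] at this
    rw [← this]; abel
  have hYN : Y * N = 1 - γ • N := by
    have := hN.right
    rw [add_mul, smul_mul_assoc, one_mul] at this
    rw [← this]; abel
  let s : Fin r → S.saA := fun d => funA Real.sqrt (D d)
  have hU : ∀ d, ∑ c, R c * root hB R D N c d = γ • (N * R d * mulOp hB (s d)) := by
    intro d
    simp only [root, mul_sub, mul_ite, mul_zero, Finset.sum_sub_distrib, Finset.sum_ite_eq',
      Finset.mem_univ, if_true]
    have e : ∑ c, R c * (side hB R D N c * R d * mulOp hB (s d))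
        = Y * N * R d * mulOp hB (s d) := by
      simp only [Y, gram, side, Finset.sum_mul, mul_assoc]
    rw [e, hYN, sub_mul, sub_mul, one_mul, sub_sub_cancel, smul_mul_assoc, smul_mul_assoc]
  have hm0 : ∀ d, N * R d * mulOp hB (s d) ∈ calc' hB := fun d =>
    mul_mem_calc (mul_mem_calc hN.mem (hR d)) (mulOp_mem hB _)
  have hterm : ∀ d, ell (adjoint (γ • (N * R d * mulOp hB (s d))) *
      (γ • (N * R d * mulOp hB (s d))))
      = γ ^ 2 * ell (N * R d * mulOp hB (D d) * (adjoint (R d) * N)) := by
    intro d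
    rw [adj_smul, smul_mul_smul_comm, ← pow_two,
      ell_smul _ (mul_mem_calc (adjoint_mem_calc (hm0 d)) (hm0 d)),
      ell_mul_comm (adjoint_mem_calc (hm0 d)) (hm0 d), adj_mul, adj_mul, hN.symm, adjoint_mulOp]
    congr 2
    rw [← sqrt_mul_sqrt_op hD d]
    simp only [s, mul_assoc]
  simp only [hU, hterm]
  rw [← Finset.mul_sum, ← ell_sum _ _ fun d _ => mul_mem_calc
    (mul_mem_calc (mul_mem_calc hN.mem (hR d)) (mulOp_mem hB _))
    (mul_mem_calc (adjoint_mem_calc (hR d)) hN.mem), sum_gram]
  refine le_of_le_of_eq ?_ (show γ * ell (1 : S.LOp) = γ by rw [ell_one hB, mul_one])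
  rw [pow_two, mul_assoc]
  refine mul_le_mul_of_nonneg_left ?_ hγ.le
  have hm := mul_mem_calc (mul_mem_calc hN.mem hYm) hN.mem
  rw [← ell_smul γ hm]
  refine ell_mono (Submodule.smul_mem _ _ hm) (one_mem_calc hB) fun v => ?_
  set w := γ • N v
  have e1 : (γ • (N * Y * N)) v = w - γ • N w := by
    rw [← mul_smul_comm, hNY, mul_apply_eq_comp, smul_apply, sub_apply, one_apply_eq_self,
      smul_apply]
  rw [e1, inner_sub_right, one_apply_eq_self, real_inner_self_eq_norm_sq]
  have e2 : ⟪v, γ • N w⟫_ℝ = ‖w‖ ^ 2 := by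
    rw [← real_inner_self_eq_norm_sq, real_inner_smul_right, ← inner_symm' hN.symm,
      ← real_inner_smul_left]
  rw [e2]
  nlinarith [real_inner_le_norm v w, sq_nonneg (‖v‖ - ‖w‖), norm_nonneg v, norm_nonneg w]

variable (hB)

/-- The covariance of one step. -/
structure Cov (R : Fin r → S.LOp) (e lev : Fin r → S.saA) (act : S.saA) (γ η : ℝ) where
  D : Fin r → S.saA
  err : Fin r → S.saA
  T : Fin r → Fin r → S.LOp
  sqs : Fin r → Option (Fin r) → S.LOp
  T_mem : ∀ c d, T c d ∈ calc' hB
  sqs_mem : ∀ c i, sqs c i ∈ calc' hB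
  T_supp : ∀ c d, mulOp hB (e c) * T c d = T c d
  D_nonneg : ∀ c χ, 0 ≤ val χ (D c)
  D_le : ∀ c χ, val χ (D c) ≤ val χ (e c)
  sum : ∀ c, ∑ d, T c d * adjoint (T c d) + ∑ i, adjoint (sqs c i) * sqs c i = mulOp hB (D c)
  diagonal : ∀ c, ∀ h : S.saA, (∀ χ, 0 ≤ val χ h) →
    ∑ i, ell (mulOp hB h * (adjoint (sqs c i) * sqs c i))
      ≤ trA (mulA h ((2 : ℝ) • mulA (lev c) (D c) + err c))
  err_le : ∑ c, trA (err c) ≤ η
  err_nonneg : ∀ c χ, 0 ≤ val χ (err c)
  count : ∑ c, trA (mulA (e c - D c) (lev c)) ≤ trA act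
  residual : ∑ d, ell (adjoint (∑ c, R c * T c d) * ∑ c, R c * T c d) ≤ γ

/-- Every finite family of rows has a covariance. -/
theorem exists_cov {R : Fin r → S.LOp} {e lev : Fin r → S.saA} {act : S.saA} {γ η m : ℝ}
    (hR : ∀ c, R c ∈ calc' hB) (hact : mulA act act = act)
    (hsupp : ∀ c, mulOp hB act * R c = R c)
    (he : ∀ c, mulA (e c) (e c) = e c) (hm : 0 < m) (hlev : ∀ c χ, m ≤ val χ (lev c))
    (hγ : 0 < γ) (hη : 0 < η) : Nonempty (Cov hB R e lev act γ η) := by
  obtain ⟨D, err, hD0, hDe, herr0, herr, hkeep, hdiag⟩ := exists_weights hR he hm hlev hγ hη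
  have hN := soft_spec hR hγ hD0
  set N := soft hB R γ D
  refine ⟨⟨D, err, root hB R D N, defect hB R D γ N, root_mem hR hN, defect_mem hR hN, ?_, hD0,
    hDe, root_add_defect hγ.le hD0 hN, ?_, herr, herr0, ?_, root_residual hγ hR hD0 hN⟩⟩
  · have hed : ∀ c, mulA (e c) (D c) = D c ∧
        mulA (e c) (funA Real.sqrt (D c)) = funA Real.sqrt (D c) := fun c => by
      have h01 : ∀ χ, val χ (e c) = 1 ∨ val χ (D c) = 0 := fun χ => by
        have h := congrArg (val χ) (he c)
        rw [val_mulA, mul_right_eq_self₀] at h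
        exact h.imp id fun h0 => le_antisymm (h0 ▸ hDe c χ) (hD0 c χ)
      constructor <;> refine saA_ext fun χ => ?_ <;> rw [val_mulA] <;>
        rcases h01 χ with h | h <;>
        simp [h, val_funA χ Real.continuous_sqrt]
    intro c d
    have eG : mulOp hB (e c) * side hB R D N c = side hB R D N c := by
      simp only [side, ← mul_assoc, mulOp_mul, (hed c).1]
    simp only [root, mul_sub]
    rw [← mul_assoc, ← mul_assoc, eG]
    congr 1
    split_ifs
    · rw [mulOp_mul, (hed c).2]
    · rw [mul_zero]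
  · intro c h hh
    refine (defect_diag hγ hR hD0 hN c h hh).trans ?_
    rw [← trA_smul]
    refine trA_mono fun χ => ?_
    simp only [val_smul, val_mulA, val_add]
    have h1 := mul_le_mul_of_nonneg_left (hdiag c χ) (hh χ)
    calc 2 * (val χ (D c) * val χ h * val χ (D c) * val χ (lever hB R γ D c))
        = val χ h * (2 * (val χ (D c) * val χ (D c) * val χ (lever hB R γ D c))) := by ring
      _ ≤ _ := h1
  · refine le_trans (Finset.sum_le_sum fun c _ => trA_mono fun χ => ?_)
      (total_lever hγ hR hact hsupp hN)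
    simp only [val_mulA, val_sub]
    exact hkeep c χ

end Tracial

end Vale.Agent.P078.Tr
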