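import Vale.Agent.P078.Tr.Cov.Calc

/-! Self-adjoint elements of `A` as functions on the characters, and as multiplications on
`L²(A)`. -/

open Filter Topology
open scoped ComplexOrder InnerProductSpace

noncomputable section

namespace Vale.Agent.P078.Tr

universe u

variable {H : Type u} [NormedAddCommGroup H] [InnerProductSpace ℂ H] [CompleteSpace H]
  {S : Tracial H}

attribute [local instance] InnerProductSpace.complexToReal

namespace Tracial

open ContinuousLinearMap (adjoint)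

/-- Characters commute with the functional calculus. -/
lemma ev_cfc (χ : S.Chi) {f : ℝ → ℝ} (hf : Continuous f) {x : Op H} (hx : x ∈ S.A)
    (hs : IsSelfAdjoint x) : S.ev χ (cfc f x) = f (S.ev χ x) := by
  have hxs : IsSelfAdjoint (⟨x, hx⟩ : S.Alg) := isSelfAdjoint_coe.1 hs
  have hincl : ((cfc f (⟨x, hx⟩ : S.Alg) : S.Alg) : Op H) = cfc f x := by
    have := StarAlgHomClass.map_cfc (R := ℝ) (S := ℂ) S.A.subtype f (⟨x, hx⟩ : S.Alg)
      hf.continuousOn continuous_subtype_val hxs hs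
    exact this
  rw [← hincl, ev, evC_of_mem (cfc f (⟨x, hx⟩ : S.Alg)).2, ev, evC_of_mem hx]
  have h1 : χ (cfc f (⟨x, hx⟩ : S.Alg)) = cfc f (χ ⟨x, hx⟩) :=
    StarAlgHomClass.map_cfc (R := ℝ) (S := ℂ) χ f (⟨x, hx⟩ : S.Alg) hf.continuousOn
      (map_continuous χ) hxs (hxs.map χ)
  have h2 : χ ⟨x, hx⟩ = algebraMap ℝ ℂ (χ ⟨x, hx⟩).re := by
    have h3 : (χ ⟨x, hx⟩).im = 0 := by simpa [evC_of_mem hx] using evC_im (χ := χ) hx hs
    exact Complex.ext (by simp) (by simp [h3])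
  rw [h1]
  conv_lhs => rw [h2, cfc_algebraMap]
  exact Complex.ofReal_re _

/-- A self-adjoint element of `A` as a function of the character. -/
def val (χ : S.Chi) (a : S.saA) : ℝ := S.ev χ (a : Op H)

@[simp] lemma val_add (χ : S.Chi) (a b : S.saA) : val χ (a + b) = val χ a + val χ b :=
  ev_add a.2.1 b.2.1

@[simp] lemma val_sub (χ : S.Chi) (a b : S.saA) : val χ (a - b) = val χ a - val χ b :=
  ev_sub a.2.1 b.2.1

@[simp] lemma val_smul (χ : S.Chi) (c : ℝ) (a : S.saA) : val χ (c • a) = c * val χ a :=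
  ev_smul c a.2.1

@[simp] lemma val_zero (χ : S.Chi) : val χ (0 : S.saA) = 0 := ev_zero

@[simp] lemma val_sum {ι : Type*} (χ : S.Chi) (s : Finset ι) (a : ι → S.saA) :
    val χ (∑ i ∈ s, a i) = ∑ i ∈ s, val χ (a i) := by
  rw [val, AddSubmonoidClass.coe_finsetSum]
  exact ev_sum _ _ fun i _ => (a i).2.1

/-- The unit. -/
def oneA (S : Tracial H) : S.saA := ⟨1, one_mem _, .one _⟩

@[simp] lemma coe_oneA : ((oneA S : S.saA) : Op H) = 1 := rfl

@[simp] lemma val_oneA (χ : S.Chi) : val χ (oneA S) = 1 := ev_one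

/-- The product. -/
def mulA (a b : S.saA) : S.saA :=
  ⟨(a : Op H) * b, mul_mem a.2.1 b.2.1, by
    rw [IsSelfAdjoint, star_mul, a.2.2.star_eq, b.2.2.star_eq, S.comm _ b.2.1 _ a.2.1]⟩

@[simp] lemma coe_mulA (a b : S.saA) : ((mulA a b : S.saA) : Op H) = (a : Op H) * b := rfl

@[simp] lemma val_mulA (χ : S.Chi) (a b : S.saA) : val χ (mulA a b) = val χ a * val χ b :=
  ev_mul a.2.1 b.2.1 a.2.2

/-- Functional calculus. -/
def funA (f : ℝ → ℝ) (a : S.saA) : S.saA :=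
  ⟨cfc f (a : Op H), S.cfc_mem_A a.2.1 f, cfc_predicate _ _⟩

lemma val_funA (χ : S.Chi) {f : ℝ → ℝ} (hf : Continuous f) (a : S.saA) :
    val χ (funA f a) = f (val χ a) := ev_cfc χ hf a.2.1 a.2.2

lemma saA_le_iff {a b : S.saA} : (a : Op H) ≤ b ↔ ∀ χ, val χ a ≤ val χ b :=
  le_iff a.2.1 b.2.1 a.2.2 b.2.2

lemma saA_nonneg_iff {a : S.saA} : 0 ≤ (a : Op H) ↔ ∀ χ, 0 ≤ val χ a :=
  nonneg_iff a.2.1 a.2.2

lemma saA_ext {a b : S.saA} (h : ∀ χ, val χ a = val χ b) : a = b :=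
  Subtype.ext ((ext_iff_ev a.2.1 b.2.1 a.2.2 b.2.2).2 h)

lemma mulA_comm (a b : S.saA) : mulA a b = mulA b a := saA_ext fun χ => by simp [mul_comm]

/-- The trace of a self-adjoint element of `A`. -/
def trA (a : S.saA) : ℝ := S.tr (a : Op H)

@[simp] lemma trA_add (a b : S.saA) : trA (a + b) = trA a + trA b := S.tr_add _ _
@[simp] lemma trA_sub (a b : S.saA) : trA (a - b) = trA a - trA b := S.tr_sub _ _
@[simp] lemma trA_smul (c : ℝ) (a : S.saA) : trA (c • a) = c * trA a := S.tr_smul _ _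
@[simp] lemma trA_oneA : trA (oneA S) = 1 := S.tr_one

lemma trA_sum {ι : Type*} (s : Finset ι) (a : ι → S.saA) :
    trA (∑ i ∈ s, a i) = ∑ i ∈ s, trA (a i) := by
  rw [trA, AddSubmonoidClass.coe_finsetSum, S.tr_sum]; rfl

lemma trA_mono {a b : S.saA} (h : ∀ χ, val χ a ≤ val χ b) : trA a ≤ trA b :=
  S.tr_mono (saA_le_iff.2 h)

lemma trA_nonneg {a : S.saA} (h : ∀ χ, 0 ≤ val χ a) : 0 ≤ trA a :=
  S.tr_nonneg (saA_nonneg_iff.2 h)

lemma inner_emb' (a b : S.saA) : ⟪S.emb a, S.emb b⟫_ℝ = trA (mulA a b) := S.inner_emb a b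

lemma normSq_emb' (a : S.saA) : ‖S.emb a‖ ^ 2 = trA (mulA a a) := S.normSq_emb a

lemma abs_trA_mulA_le (a b : S.saA) : |trA (mulA a b)| ≤ ‖S.emb a‖ * ‖S.emb b‖ := by
  rw [← inner_emb']; exact abs_real_inner_le_norm _ _

/-- Comparison by traces against positive elements. -/
lemma val_le_of_trA_le {x y : S.saA}
    (h : ∀ k : S.saA, (∀ χ, 0 ≤ val χ k) → trA (mulA k x) ≤ trA (mulA k y)) (χ : S.Chi) :
    val χ x ≤ val χ y := by
  set d := funA (fun t => max t 0) (x - y) with hd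
  have hv : ∀ χ, val χ d = max (val χ x - val χ y) 0 := fun χ => by
    rw [hd, val_funA χ (by fun_prop), val_sub]
  have h1 := h d fun χ => by rw [hv]; exact le_max_right _ _
  have h2 : trA (mulA d d) ≤ 0 := by
    have e : mulA d d = mulA d x - mulA d y := saA_ext fun χ => by
      simp only [val_mulA, val_sub, hv]
      rcases le_total (val χ x - val χ y) 0 with h0 | h0
      · rw [max_eq_right h0]; ring
      · rw [max_eq_left h0]; ring
    rw [e, trA_sub]; linarith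
  have h3 : (d : Op H) = 0 := by
    refine S.eq_zero_of_sq_eq_zero (S.le _ d.2.1) (le_antisymm ?_ (S.tr_star_mul_nonneg _))
    rw [d.2.2.star_eq]; exact h2
  have h4 : val χ d = 0 := by rw [val, h3, ev_zero]
  rw [hv] at h4
  linarith [le_max_left (val χ x - val χ y) 0]

variable (hB : Basics S)

/-- Multiplication by `a`. -/
def mulOp (a : S.saA) : S.LOp :=
  (4⁻¹ : ℝ) • (S.elem hB ⟨(a : Op H) + 1, S.le _ (add_mem a.2.1 (one_mem _))⟩ -
    S.elem hB ⟨(a : Op H) - 1, S.le _ (sub_mem a.2.1 (one_mem _))⟩)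

lemma mulOp_mem (a : S.saA) : mulOp hB a ∈ calc' hB :=
  Submodule.smul_mem _ _ (sub_mem (elem_mem_calc hB _) (elem_mem_calc hB _))

lemma coe_elem_of_mem (z : S.M) (za : S.saA) (hz : (za : Op H) = z) (b : S.saA) :
    S.elem hB z (S.emb b) = S.emb (mulA (mulA za za) b) := by
  refine S.L2_ext ?_
  rw [coe_elem_emb, coe_emb, coe_mulA, coe_mulA, ← hz, za.2.2.star_eq,
    hB.E_self _ (mul_mem (mul_mem za.2.1 b.2.1) za.2.1), mul_assoc, S.comm _ b.2.1 _ za.2.1,
    ← mul_assoc]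

lemma mulOp_emb (a b : S.saA) : mulOp hB a (S.emb b) = S.emb (mulA a b) := by
  rw [mulOp, smul_apply, sub_apply, coe_elem_of_mem hB _ (a + oneA S) rfl,
    coe_elem_of_mem hB _ (a - oneA S) rfl, ← map_sub, ← map_smul]
  congr 1
  refine saA_ext fun χ => ?_
  simp only [val_smul, val_sub, val_add, val_mulA, val_oneA]
  ring

lemma mulOp_mul (a b : S.saA) : mulOp hB a * mulOp hB b = mulOp hB (mulA a b) :=
  S.LOp_ext fun v => by
    rw [mul_apply_eq_comp, mulOp_emb, mulOp_emb, mulOp_emb]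
    congr 1

lemma mulOp_add (a b : S.saA) : mulOp hB (a + b) = mulOp hB a + mulOp hB b :=
  S.LOp_ext fun v => by
    rw [add_apply, mulOp_emb, mulOp_emb, mulOp_emb, ← map_add]
    congr 1

lemma mulOp_smul (c : ℝ) (a : S.saA) : mulOp hB (c • a) = c • mulOp hB a :=
  S.LOp_ext fun v => by
    rw [smul_apply, mulOp_emb, mulOp_emb, ← map_smul]
    congr 1

lemma mulOp_sub (a b : S.saA) : mulOp hB (a - b) = mulOp hB a - mulOp hB b := by
  rw [eq_sub_iff_add_eq, ← mulOp_add, sub_add_cancel]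

lemma mulOp_one : mulOp hB (oneA S) = 1 :=
  S.LOp_ext fun v => by
    rw [one_apply_eq_self, mulOp_emb]
    congr 1

lemma adjoint_mulOp (a : S.saA) : adjoint (mulOp hB a) = mulOp hB a := by
  refine S.adjoint_eq fun b c => ?_
  rw [mulOp_emb, mulOp_emb, inner_emb', inner_emb']
  congr 1
  exact saA_ext fun χ => by simp; ring

lemma inner_mulOp_mono {a b : S.saA} (h : ∀ χ, val χ a ≤ val χ b) (v : S.L2) :
    ⟪v, mulOp hB a v⟫_ℝ ≤ ⟪v, mulOp hB b v⟫_ℝ := by
  induction v using S.denseRange_emb.induction_on with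
  | hp => exact isClosed_le (by fun_prop) (by fun_prop)
  | ih w =>
    rw [mulOp_emb, mulOp_emb, inner_emb', inner_emb']
    refine trA_mono fun χ => ?_
    simp only [val_mulA]
    nlinarith [h χ, mul_self_nonneg (val χ w)]

lemma inner_mulOp_nonneg {a : S.saA} (h : ∀ χ, 0 ≤ val χ a) (v : S.L2) :
    0 ≤ ⟪v, mulOp hB a v⟫_ℝ := by
  have := inner_mulOp_mono hB (a := 0) (b := a) (fun χ => by simpa using h χ) v
  rwa [show mulOp hB (0 : S.saA) = 0 from by
    have e := mulOp_smul hB 0 (0 : S.saA)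
    rwa [zero_smul, zero_smul] at e, zero_apply, inner_zero_right] at this

/-- A piece of a partition as an element of the self-adjoint part. -/
def pieceA (P : Part S) (i : Fin P.n) : S.saA := ⟨P.p i, P.mem i, (P.proj i).isSelfAdjoint⟩

lemma cell_eq (P : Part S) (i : Fin P.n) : cell P i = S.emb (pieceA P i) := rfl

lemma sum_pieceA_mul (P : Part S) (a : S.saA) : ∑ i, trA (mulA (pieceA P i) a) = trA a := by
  simp only [trA, coe_mulA]
  rw [← S.tr_sum, ← Finset.sum_mul]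
  show S.tr ((∑ i, P.p i) * (a : Op H)) = _
  rw [P.sum_eq, one_mul]

lemma sq_mulOp (a : S.saA) (P : Part S) : sq (mulOp hB a) P = ‖S.emb a‖ ^ 2 := by
  rw [normSq_emb', ← sum_pieceA_mul P (mulA a a)]
  refine Finset.sum_congr rfl fun i _ => ?_
  rw [cell_eq, mulOp_emb, normSq_emb']
  congr 1
  refine Subtype.ext ?_
  show (a : Op H) * P.p i * ((a : Op H) * P.p i) = P.p i * ((a : Op H) * (a : Op H))
  rw [S.comm _ a.2.1 _ (P.mem i), mul_assoc, ← mul_assoc (a : Op H) (P.p i),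
    S.comm _ a.2.1 _ (P.mem i), mul_assoc (P.p i) (a : Op H), ← mul_assoc (P.p i) (P.p i),
    P.mul_self]

lemma abs_ell_mulOp_le (a : S.saA) {X : S.LOp} (hX : X ∈ calc' hB) {δ : ℝ} (hδ : 0 ≤ δ)
    (h : ∀ᶠ P in fine S, sq X P ≤ δ ^ 2) : |ell (mulOp hB a * X)| ≤ ‖S.emb a‖ * δ := by
  have ht := tendsto_pairing (mulOp_mem hB a) hX
  rw [adjoint_mulOp] at ht
  refine le_of_tendsto ht.abs ?_
  filter_upwards [h] with P hP
  rw [← inner_vals]
  refine (abs_real_inner_le_norm _ _).trans (mul_le_mul (le_of_eq ?_) ?_ (norm_nonneg _)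
    (norm_nonneg _))
  · exact (sq_eq_sq₀ (norm_nonneg _) (norm_nonneg _)).1 (by rw [normSq_vals, sq_mulOp])
  · exact (sq_le_sq₀ (norm_nonneg _) hδ).1 (by rwa [normSq_vals])

/-- Compressing by a square root. -/
lemma ell_mulOp_sq (k : S.saA) {T : S.LOp} (hT : T ∈ calc' hB) :
    ell (mulOp hB (mulA k k) * T) = ell (mulOp hB k * T * mulOp hB k) := by
  rw [← mulOp_mul, mul_assoc, ell_mul_comm (mulOp_mem hB k) (mul_mem_calc (mulOp_mem hB k) hT)]

lemma mulA_sqrt {a : S.saA} (h : ∀ χ, 0 ≤ val χ a) :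
    mulA (funA Real.sqrt a) (funA Real.sqrt a) = a :=
  saA_ext fun χ => by
    rw [val_mulA, val_funA χ Real.continuous_sqrt, Real.mul_self_sqrt (h χ)]

lemma ell_mulOp_mono {a : S.saA} (ha : ∀ χ, 0 ≤ val χ a) {T T' : S.LOp} (hT : T ∈ calc' hB)
    (hT' : T' ∈ calc' hB) (h : ∀ v, ⟪v, T v⟫_ℝ ≤ ⟪v, T' v⟫_ℝ) :
    ell (mulOp hB a * T) ≤ ell (mulOp hB a * T') := by
  rw [← mulA_sqrt ha, ell_mulOp_sq hB _ hT, ell_mulOp_sq hB _ hT']
  refine ell_mono (mul_mem_calc (mul_mem_calc (mulOp_mem hB _) hT) (mulOp_mem hB _))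
    (mul_mem_calc (mul_mem_calc (mulOp_mem hB _) hT') (mulOp_mem hB _)) fun v => ?_
  simp only [mul_apply_eq_comp]
  rw [← adjoint_mulOp hB (funA Real.sqrt a), ContinuousLinearMap.adjoint_inner_right,
    ContinuousLinearMap.adjoint_inner_right, adjoint_mulOp]
  exact h _

end Tracial

end Vale.Agent.P078.Tr
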