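import Vale.Agent.P078.Tr.Basics.Pinch

/-! Finer and finer partitions in a MASA, and their pinchings. -/

open Filter Topology

noncomputable section

namespace Vale.Agent.P078.Tr

universe u

variable {H : Type u} [NormedAddCommGroup H] [InnerProductSpace ℂ H] [CompleteSpace H]
  {S : Tracial H}

lemma Part.mul_eq (P : Part S) (i j : Fin P.n) :
    P.p i * P.p j = if i = j then P.p i else 0 := by
  split_ifs with h
  · rw [h, P.mul_self]
  · exact P.orth i j h

/-- Finer and finer partitions. -/
def fine (S : Tracial H) : Filter (Part S) := ⨅ P₀ : Part S, 𝓟 {P | P.Refines P₀}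

lemma fine_hasBasis : (fine S).HasBasis (fun _ => True) fun P₀ => {P : Part S | P.Refines P₀} :=
  have : Nonempty (Part S) := ⟨Part.one S⟩
  hasBasis_iInf_principal fun P Q => ⟨P.inter Q, fun _ h => h.trans (P.inter_refines_left Q),
    fun _ h => h.trans (P.inter_refines_right Q)⟩

instance : (fine S).NeBot := fine_hasBasis.neBot_iff.2 fun {P} _ => ⟨P, P.refines_refl⟩

lemma eventually_fine {q : Part S → Prop} :
    (∀ᶠ P in fine S, q P) ↔ ∃ P₀ : Part S, ∀ P : Part S, P.Refines P₀ → q P := by
  simp [fine_hasBasis.eventually_iff]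

lemma eventually_refines (P₀ : Part S) : ∀ᶠ P in fine S, P.Refines P₀ :=
  eventually_fine.2 ⟨P₀, fun _ h => h⟩

/-- A function that does not increase under refinement tends to its infimum. -/
lemma tendsto_fine_ciInf {f : Part S → ℝ} (hmono : ∀ P Q : Part S, Q.Refines P → f Q ≤ f P)
    (hbdd : BddBelow (Set.range f)) : Tendsto f (fine S) (𝓝 (⨅ P, f P)) := by
  have : Nonempty (Part S) := ⟨Part.one S⟩
  refine tendsto_order.2 ⟨fun b hb => ?_, fun b hb => ?_⟩
  · exact Eventually.of_forall fun P => hb.trans_le (ciInf_le hbdd P)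
  · obtain ⟨P, hP⟩ := exists_lt_of_ciInf_lt hb
    exact (eventually_refines P).mono fun Q hQ => (hmono P Q hQ).trans_lt hP

namespace Part

lemma Refines.mul_cases {P Q : Part S} (h : Q.Refines P) (i : Fin P.n) (j : Fin Q.n) :
    P.p i * Q.p j = Q.p j ∨ P.p i * Q.p j = 0 := by
  obtain ⟨k, hk⟩ := h j
  by_cases hik : i = k
  · exact Or.inl (hik ▸ hk)
  · right
    rw [← hk, ← mul_assoc, P.orth i k hik, zero_mul]

end Part

end Vale.Agent.P078.Tr
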