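import Vale.Agent.P078.Tr.Cov.L2

/-! Pinchings in the trace norm, and the expectation. -/

open Filter Topology
open scoped ComplexOrder InnerProductSpace

noncomputable section

namespace Vale.Agent.P078.Tr

universe u

variable {H : Type u} [NormedAddCommGroup H] [InnerProductSpace ℂ H] [CompleteSpace H]
  {S : Tracial H}

attribute [local instance] InnerProductSpace.complexToReal

namespace Tracial

lemma smul_real_mem_M (c : ℝ) {x : Op H} (hx : x ∈ S.M) : c • x ∈ S.M := by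
  rw [← Complex.coe_smul]; exact S.M.toStarSubalgebra.smul_mem hx _

end Tracial

namespace Part

variable (P : Part S)

/-- The pinching as a linear map. -/
def pinchₗ : Op H →ₗ[ℂ] Op H where
  toFun := P.pinch
  map_add' x y := by simp only [pinch, mul_add, add_mul, Finset.sum_add_distrib]
  map_smul' c x := by
    simp only [pinch, mul_smul_comm, smul_mul_assoc, Finset.smul_sum, RingHom.id_apply]

lemma pinch_mul_self (x y : Op H) :
    P.pinch x * P.pinch y = ∑ i, P.p i * x * P.p i * y * P.p i := by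
  rw [pinch, Finset.sum_mul]
  refine Finset.sum_congr rfl fun i _ => ?_
  rw [mul_assoc (P.p i * x), p_mul_pinch]
  simp only [mul_assoc]

lemma pinch_mul_of_mem {a : Op H} (ha : a ∈ S.A) (x : Op H) :
    P.pinch (a * x) = a * P.pinch x := by
  simp only [pinch, Finset.mul_sum, ← mul_assoc, S.comm _ ha _ (P.mem _)]

/-- Pinchings are self-adjoint for the trace. -/
lemma tr_mul_pinch {x y : Op H} (hx : x ∈ S.M) (hy : y ∈ S.M) :
    S.tr (x * P.pinch y) = S.tr (P.pinch x * P.pinch y) := by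
  rw [pinch_mul_self, S.tr_sum, pinch, Finset.mul_sum, S.tr_sum]
  refine Finset.sum_congr rfl fun i _ => ?_
  have hp := P.mem_M i
  rw [← mul_assoc, ← mul_assoc, S.tr_comm (mul_mem (mul_mem hx hp) hy) hp,
    show P.p i * (x * P.p i * y) = P.p i * x * P.p i * y by simp only [mul_assoc],
    show P.p i * x * P.p i * y * P.p i = (P.p i * x * P.p i * y) * P.p i from rfl,
    S.tr_comm (mul_mem (mul_mem (mul_mem hp hx) hp) hy) hp,
    show P.p i * (P.p i * x * P.p i * y) = P.p i * P.p i * (x * P.p i * y) by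
      simp only [mul_assoc],
    P.mul_self]
  simp only [mul_assoc]

lemma normSq_pinch {x : Op H} (hx : x ∈ S.M) :
    ‖S.avec (P.pinch x)‖ ^ 2 = S.tr (star x * P.pinch x) := by
  rw [S.normSq_avec, ← P.pinch_star, ← P.tr_mul_pinch (star_mem hx) hx]

lemma norm_avec_pinch_le {x : Op H} (hx : x ∈ S.M) : ‖S.avec (P.pinch x)‖ ≤ ‖S.avec x‖ := by
  have h := (P.normSq_pinch hx).trans_le
    ((le_abs_self _).trans (S.abs_tr_star_mul_le x (P.pinch x)))
  nlinarith [norm_nonneg (S.avec (P.pinch x)), norm_nonneg (S.avec x)]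

lemma Refines.norm_avec_pinch_le {P Q : Part S} (h : Q.Refines P) {x : Op H} (hx : x ∈ S.M) :
    ‖S.avec (Q.pinch x)‖ ≤ ‖S.avec (P.pinch x)‖ := by
  rw [← h.pinch_pinch]; exact Q.norm_avec_pinch_le (P.pinch_mem hx)

end Part

namespace Tracial

variable (hB : Basics S)
include hB

lemma E_mem_M {x : Op H} (hx : x ∈ S.M) : S.E x ∈ S.M := S.le _ (hB.E_mem x hx)

lemma tr_mul_E {x b : Op H} (hx : x ∈ S.M) (hb : b ∈ S.A) :
    S.tr (b * S.E x) = S.tr (b * x) := by rw [tr, tr, hB.E_tau x hx b hb]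

lemma E_isSelfAdjoint {x : Op H} (hx : x ∈ S.M) (h : IsSelfAdjoint x) :
    IsSelfAdjoint (S.E x) := by
  rw [IsSelfAdjoint, ← hB.E_star x hx, h.star_eq]

lemma E_sum {ι : Type*} (s : Finset ι) (f : ι → Op H) (h : ∀ i ∈ s, f i ∈ S.M) :
    S.E (∑ i ∈ s, f i) = ∑ i ∈ s, S.E (f i) := by
  classical
  induction s using Finset.induction_on with
  | empty => simpa using hB.E_self 0 (zero_mem _)
  | insert i s hi ih =>
    rw [Finset.sum_insert hi, Finset.sum_insert hi, hB.E_add _ (h i (Finset.mem_insert_self i s))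
      _ (sum_mem fun j hj => h j (Finset.mem_insert_of_mem hj)),
      ih fun j hj => h j (Finset.mem_insert_of_mem hj)]

lemma E_rsmul (c : ℝ) {x : Op H} (hx : x ∈ S.M) : S.E (c • x) = c • S.E x := by
  rw [← Complex.coe_smul, hB.E_smul _ x hx, Complex.coe_smul]

lemma E_pinch (P : Part S) {x : Op H} (hx : x ∈ S.M) : S.E (P.pinch x) = S.E x := by
  rw [Part.pinch, E_sum hB _ _ fun i _ => mul_mem (mul_mem (P.mem_M i) hx) (P.mem_M i)]
  calc ∑ i, S.E (P.p i * x * P.p i) = ∑ i, P.p i * S.E x := by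
        refine Finset.sum_congr rfl fun i _ => ?_
        rw [(hB.E_mul _ (P.mem i) _ (mul_mem (P.mem_M i) hx)).2,
          (hB.E_mul _ (P.mem i) x hx).1, ← mul_assoc, P.mul_self]
    _ = S.E x := by rw [← Finset.sum_mul, P.sum_eq, one_mul]

lemma normSq_E {x : Op H} (hx : x ∈ S.M) :
    ‖S.avec (S.E x)‖ ^ 2 = S.tr (star (S.E x) * x) := by
  rw [S.normSq_avec, tr_mul_E hB hx (star_mem (hB.E_mem x hx))]

lemma norm_E_le {x : Op H} (hx : x ∈ S.M) : ‖S.avec (S.E x)‖ ≤ ‖S.avec x‖ := by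
  have h := (normSq_E hB hx).trans_le
    ((le_abs_self _).trans (S.abs_tr_star_mul_le (S.E x) x))
  nlinarith [norm_nonneg (S.avec (S.E x)), norm_nonneg (S.avec x)]

/-- The distance from a pinching to the expectation. -/
lemma normSq_pinch_sub_E (P : Part S) {x : Op H} (hx : x ∈ S.M) :
    ‖S.avec (P.pinch x) - S.avec (S.E x)‖ ^ 2
      = ‖S.avec (P.pinch x)‖ ^ 2 - ‖S.avec (S.E x)‖ ^ 2 := by
  have hE := hB.E_mem x hx
  have h : ⟪S.avec (P.pinch x), S.avec (S.E x)⟫_ℝ = ‖S.avec (S.E x)‖ ^ 2 := by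
    rw [real_inner_comm, S.inner_avec_real, P.tr_mul_pinch (star_mem (E_mem_M hB hx)) hx,
      P.pinch_self (star_mem hE), ← tr_mul_E hB (P.pinch_mem hx) (star_mem hE), E_pinch hB P hx,
      S.normSq_avec]
  rw [norm_sub_sq_real, h]
  ring

lemma tendsto_pinch {x : Op H} (hx : x ∈ S.M) :
    Tendsto (fun P : Part S => S.avec (P.pinch x)) (fine S) (𝓝 (S.avec (S.E x))) := by
  refine Metric.tendsto_nhds.2 fun η hη => eventually_fine.2 ?_
  obtain ⟨P₀, h⟩ := hB.pinch_tendsto x hx (η ^ 2 / 2) (by positivity)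
  refine ⟨P₀, fun P hP => ?_⟩
  have h' := h P hP
  rw [← S.normSq_avec, map_sub] at h'
  rw [dist_eq_norm]
  nlinarith [norm_nonneg (S.avec (P.pinch x) - S.avec (S.E x))]

lemma tendsto_normSq_pinch {x : Op H} (hx : x ∈ S.M) :
    Tendsto (fun P : Part S => ‖S.avec (P.pinch x)‖ ^ 2) (fine S)
      (𝓝 (‖S.avec (S.E x)‖ ^ 2)) :=
  ((tendsto_pinch hB hx).norm).pow 2

end Tracial

end Vale.Agent.P078.Tr
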