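import Vale.Agent.P078.Tr.Cov.Gram

/-! The monotone leverage reweighting. -/

open Filter Topology
open scoped ComplexOrder InnerProductSpace

noncomputable section

namespace Vale.Agent.P078.Tr

universe u

variable {H : Type u} [NormedAddCommGroup H] [InnerProductSpace ℂ H] [CompleteSpace H]
  {S : Tracial H}

attribute [local instance] InnerProductSpace.complexToReal

namespace Tracial

variable {hB : Basics S} {r : ℕ} {R : Fin r → S.LOp} {e lev : Fin r → S.saA} {γ m : ℝ}

/-- The arithmetic of one reweighting `x ↦ x / max (x y / l) 1`. -/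
lemma reweight_arith {x y l Λ : ℝ} (hx : 0 ≤ x) (hx1 : x ≤ 1) (hy : 0 ≤ y) (hyΛ : y ≤ Λ)
    (hl : 0 < l) : x * x * y ≤ l * x + Λ * (x - x * (1 / max (x * y / l) 1)) := by
  rcases le_total (x * y / l) 1 with hu | hu
  · rw [max_eq_right hu, div_one, mul_one, sub_self, mul_zero, add_zero]
    rw [div_le_one hl] at hu
    nlinarith
  · rw [max_eq_left hu, one_div_div]
    rw [one_le_div hl] at hu
    have hxy : 0 < x * y := lt_of_lt_of_le hl hu
    have e : x * (l / (x * y)) * y = l := by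
      rw [mul_right_comm, mul_div_assoc', mul_comm, mul_div_assoc, div_self hxy.ne', mul_one]
    have hle : x * (l / (x * y)) ≤ x := mul_le_of_le_one_right hx ((div_le_one hxy).2 hu)
    have h1 : x * y - l ≤ Λ * (x - x * (l / (x * y))) := by
      calc x * y - l = y * (x - x * (l / (x * y))) := by rw [mul_sub]; linarith [e]
        _ ≤ Λ * (x - x * (l / (x * y))) := mul_le_mul_of_nonneg_right hyΛ (by linarith)
    nlinarith [mul_le_mul_of_nonneg_left h1 hx,
      mul_nonneg (mul_nonneg (hy.trans hyΛ) (sub_nonneg.2 hx1)) (sub_nonneg.2 hle)]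

/-- The clipped coordinates keep their leverage. -/
lemma reweight_inv {E x y y' l : ℝ} (hE : E ≤ 1) (hx : 0 ≤ x) (hl : 0 < l) (hy' : y ≤ y')
    (ih : (E - x) * l ≤ x * y) :
    (E - x * (1 / max (x * y / l) 1)) * l ≤ x * (1 / max (x * y / l) 1) * y' := by
  rcases le_total (x * y / l) 1 with hu | hu
  · rw [max_eq_right hu, div_one, mul_one]
    exact ih.trans (mul_le_mul_of_nonneg_left hy' hx)
  · rw [max_eq_left hu, one_div_div]
    rw [one_le_div hl] at hu
    have hxy : 0 < x * y := lt_of_lt_of_le hl hu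
    have hy : 0 < y := by nlinarith
    have e : x * (l / (x * y)) * y = l := by
      rw [mul_right_comm, mul_div_assoc', mul_comm, mul_div_assoc, div_self hxy.ne', mul_one]
    have h0 : 0 ≤ x * (l / (x * y)) := mul_nonneg hx (div_nonneg hl.le hxy.le)
    calc (E - x * (l / (x * y))) * l ≤ 1 * l := mul_le_mul_of_nonneg_right (by linarith) hl.le
      _ = x * (l / (x * y)) * y := by rw [e, one_mul]
      _ ≤ x * (l / (x * y)) * y' := mul_le_mul_of_nonneg_left hy' h0

/-- Weights below the live projections whose leverage is below the level up to a small error, and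
which lose little against the total leverage. -/
theorem exists_weights (hR : ∀ c, R c ∈ calc' hB) (he : ∀ c, mulA (e c) (e c) = e c) (hm : 0 < m)
    (hlev : ∀ c χ, m ≤ val χ (lev c)) (hγ : 0 < γ) {η : ℝ} (hη : 0 < η) :
    ∃ D err : Fin r → S.saA, (∀ c χ, 0 ≤ val χ (D c)) ∧ (∀ c χ, val χ (D c) ≤ val χ (e c)) ∧
      (∀ c χ, 0 ≤ val χ (err c)) ∧ ∑ c, trA (err c) ≤ η ∧
      (∀ c χ, (val χ (e c) - val χ (D c)) * val χ (lev c)
        ≤ val χ (D c) * val χ (lever hB R γ D c)) ∧
      ∀ c χ, 2 * (val χ (D c) * val χ (D c) * val χ (lever hB R γ D c))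
        ≤ 2 * (val χ (lev c) * val χ (D c)) + val χ (err c) := by
  have he01 : ∀ c χ, val χ (e c) = 0 ∨ val χ (e c) = 1 := fun c χ => by
    have h := congrArg (val χ) (he c)
    rw [val_mulA, mul_right_eq_self₀] at h
    exact h.symm
  have he0 : ∀ c χ, 0 ≤ val χ (e c) := fun c χ => by
    rcases he01 c χ with h | h <;> rw [h]; exact zero_le_one
  have he1 : ∀ c χ, val χ (e c) ≤ 1 := fun c χ => by
    rcases he01 c χ with h | h <;> rw [h]; exact zero_le_one
  let inv : ℝ → ℝ → ℝ := fun k t => 1 / max t k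
  have hinv : ∀ k, 0 < k → Continuous (inv k) := fun k hk =>
    continuous_const.div (by fun_prop) fun t => (hk.trans_le (le_max_right t k)).ne'
  let step : (Fin r → S.saA) → Fin r → S.saA := fun D c => mulA (D c)
    (funA (inv 1) (mulA (mulA (D c) (lever hB R γ D c)) (funA (inv m) (lev c))))
  have hstep : ∀ D c χ, val χ (step D c)
      = val χ (D c) * (1 / max (val χ (D c) * val χ (lever hB R γ D c) / val χ (lev c)) 1) := by
    intro D c χ
    rw [val_mulA, val_funA χ (hinv 1 one_pos), val_mulA, val_mulA, val_funA χ (hinv m hm)]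
    simp only [inv, max_eq_left (hlev c χ)]
    simp only [mul_one_div]
  have hfac : ∀ u : ℝ, 0 ≤ 1 / max u 1 ∧ 1 / max u 1 ≤ 1 := fun u =>
    ⟨div_nonneg zero_le_one (zero_le_one.trans (le_max_right u 1)),
      (div_le_one (zero_lt_one.trans_le (le_max_right u 1))).2 (le_max_right u 1)⟩
  let Ds : ℕ → Fin r → S.saA := fun n => step^[n] e
  have hsucc : ∀ n, Ds (n + 1) = step (Ds n) := fun n => Function.iterate_succ_apply' step n e
  have hD : ∀ n c χ, 0 ≤ val χ (Ds n c) ∧ val χ (Ds n c) ≤ val χ (e c) := by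
    intro n
    induction n with
    | zero => exact fun c χ => ⟨he0 c χ, le_rfl⟩
    | succ n ih =>
      intro c χ
      rw [hsucc, hstep]
      exact ⟨mul_nonneg (ih c χ).1 (hfac _).1,
        (mul_le_of_le_one_right (ih c χ).1 (hfac _).2).trans (ih c χ).2⟩
  have hdec : ∀ n c χ, val χ (Ds (n + 1) c) ≤ val χ (Ds n c) := fun n c χ => by
    rw [hsucc, hstep]; exact mul_le_of_le_one_right (hD n c χ).1 (hfac _).2
  have hkeep : ∀ n c χ, (val χ (e c) - val χ (Ds n c)) * val χ (lev c)
      ≤ val χ (Ds n c) * val χ (lever hB R γ (Ds n) c) := by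
    intro n
    induction n with
    | zero =>
      intro c χ
      show (val χ (e c) - val χ (e c)) * _ ≤ val χ (e c) * _
      rw [sub_self, zero_mul]
      exact mul_nonneg (he0 c χ) (lever_nonneg hR hγ (fun c χ => he0 c χ) c χ)
    | succ n ih =>
      intro c χ
      have hmono := lever_antitone (D := Ds n) hR hγ (fun c χ => (hD (n + 1) c χ).1) (hdec n) c χ
      have h1 : val χ (Ds (n + 1) c) = _ := (congrArg (fun D => val χ (D c)) (hsucc n)).trans
        (hstep (Ds n) c χ)
      rw [h1]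
      exact reweight_inv (he1 c χ) (hD n c χ).1 (hm.trans_le (hlev c χ)) hmono (ih c χ)
  set Λ : ℝ := (1 / γ) * ∑ c, ‖R c‖ ^ 2
  have hΛ0 : 0 ≤ Λ := by positivity
  obtain ⟨k, hk⟩ : ∃ k : ℕ, (r : ℝ) * (2 * Λ) < η * (k + 1) := by
    obtain ⟨k, hk⟩ := exists_nat_gt ((r : ℝ) * (2 * Λ) / η)
    refine ⟨k, ?_⟩
    rw [div_lt_iff₀ hη] at hk
    nlinarith
  obtain ⟨n, hn⟩ : ∃ n, ∑ c, trA ((2 * Λ) • (Ds n c - Ds (n + 1) c)) ≤ η := by
    by_contra hcon
    push Not at hcon
    have hsum : ∑ n ∈ Finset.range (k + 1), ∑ c, trA ((2 * Λ) • (Ds n c - Ds (n + 1) c))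
        = 2 * Λ * ∑ c, (trA (Ds 0 c) - trA (Ds (k + 1) c)) := by
      rw [Finset.mul_sum, Finset.sum_comm]
      refine Finset.sum_congr rfl fun c _ => ?_
      simp only [trA_smul, trA_sub, ← Finset.mul_sum]
      rw [Finset.sum_range_sub' (fun n => trA (Ds n c))]
    have hle : ∑ c, (trA (Ds 0 c) - trA (Ds (k + 1) c)) ≤ (r : ℝ) := by
      refine (Finset.sum_le_sum fun c _ => show _ ≤ (1 : ℝ) from ?_).trans (by simp)
      have h1 : trA (Ds 0 c) ≤ 1 := by
        rw [← trA_oneA (S := S)]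
        exact trA_mono fun χ => by rw [val_oneA]; exact ((hD 0 c χ).2).trans (he1 c χ)
      linarith [trA_nonneg fun χ => (hD (k + 1) c χ).1]
    have hgt : (((Finset.range (k + 1)).card : ℕ) : ℝ) * η
        < ∑ n ∈ Finset.range (k + 1), ∑ c, trA ((2 * Λ) • (Ds n c - Ds (n + 1) c)) := by
      rw [← nsmul_eq_mul, ← Finset.sum_const]
      exact Finset.sum_lt_sum_of_nonempty (by simp) fun n _ => hcon n
    rw [hsum, Finset.card_range] at hgt
    push_cast at hgt
    nlinarith
  refine ⟨Ds n, fun c => (2 * Λ) • (Ds n c - Ds (n + 1) c), fun c χ => (hD n c χ).1,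
    fun c χ => (hD n c χ).2, fun c χ => ?_, hn, hkeep n, fun c χ => ?_⟩
  · rw [val_smul, val_sub]
    exact mul_nonneg (by positivity) (sub_nonneg.2 (hdec n c χ))
  · have hD0 : ∀ c χ, 0 ≤ val χ (Ds n c) := fun c χ => (hD n c χ).1
    rw [val_smul, val_sub, hsucc, hstep]
    linarith [reweight_arith (hD n c χ).1 (((hD n c χ).2).trans (he1 c χ))
      (lever_nonneg hR hγ hD0 c χ) (lever_le hR hγ hD0 c χ) (hm.trans_le (hlev c χ))]

end Tracial

end Vale.Agent.P078.Tr
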