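import Vale.Agent.P078.Tr.Cov.Diag

/-! The soft inverse `(γ + R D R*)⁻¹` inside the calculus. -/

open Filter Topology
open scoped ComplexOrder InnerProductSpace

noncomputable section

namespace Vale.Agent.P078.Tr

universe u

variable {H : Type u} [NormedAddCommGroup H] [InnerProductSpace ℂ H] [CompleteSpace H]
  {S : Tracial H}

attribute [local instance] InnerProductSpace.complexToReal

namespace Tracial

open ContinuousLinearMap (adjoint)

lemma inner_symm' {X : S.LOp} (h : adjoint X = X) (v w : S.L2) :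
    ⟪X v, w⟫_ℝ = ⟪v, X w⟫_ℝ := by
  conv_lhs => rw [← h]
  exact ContinuousLinearMap.adjoint_inner_left _ _ _

/-- A positive operator with form at most `c` has norm at most `c`. -/
lemma norm_le_of_form {B : S.LOp} {c : ℝ} (hc : 0 ≤ c) (hB : adjoint B = B)
    (h0 : ∀ v, 0 ≤ ⟪v, B v⟫_ℝ) (h1 : ∀ v, ⟪v, B v⟫_ℝ ≤ c * ‖v‖ ^ 2) : ‖B‖ ≤ c := by
  refine ContinuousLinearMap.opNorm_le_bound _ hc fun v => ?_
  have hq : ∀ t : ℝ, 0 ≤ ⟪v, B v⟫_ℝ + (2 * t) * ‖B v‖ ^ 2 + t ^ 2 * (c * ‖B v‖ ^ 2) := by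
    intro t
    have h := h0 (v + t • B v)
    simp only [map_add, map_smul, inner_add_left, inner_add_right, inner_smul_left,
      inner_smul_right, RCLike.conj_to_real] at h
    have e : ⟪v, B (B v)⟫_ℝ = ‖B v‖ ^ 2 := by
      rw [← inner_symm' hB, real_inner_self_eq_norm_sq]
    rw [e, real_inner_self_eq_norm_sq] at h
    have := mul_le_mul_of_nonneg_left (h1 (B v)) (mul_self_nonneg t)
    nlinarith
  rcases hc.eq_or_lt with hc0 | hcpos
  · subst hc0
    have := hq (-1)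
    have h2 := h1 v
    rw [zero_mul]
    nlinarith [norm_nonneg (B v)]
  · have h := hq (-(1 / c))
    have h2 : ‖B v‖ ^ 2 ≤ c * ⟪v, B v⟫_ℝ := by
      field_simp at h
      nlinarith
    have h3 : ‖B v‖ ^ 2 ≤ (c * ‖v‖) ^ 2 := by
      refine h2.trans ?_
      rw [mul_pow, pow_two c, mul_assoc]
      exact mul_le_mul_of_nonneg_left (h1 v) hc
    exact (sq_le_sq₀ (norm_nonneg _) (by positivity)).1 h3

variable (hB : Basics S)

/-- A positive symmetric operator of the calculus, shifted by `γ > 0`, has an inverse there. -/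
lemma exists_soft {γ : ℝ} (hγ : 0 < γ) {Y : S.LOp} (hY : Y ∈ calc' hB) (hYs : adjoint Y = Y)
    (hY0 : ∀ v, 0 ≤ ⟪v, Y v⟫_ℝ) :
    ∃ N : S.LOp, N ∈ calc' hB ∧ adjoint N = N ∧ N * (γ • 1 + Y) = 1 ∧ (γ • 1 + Y) * N = 1 ∧
      (∀ v, 0 ≤ ⟪v, N v⟫_ℝ) ∧ ∀ v, ⟪v, N v⟫_ℝ ≤ (1 / γ) * ‖v‖ ^ 2 := by
  set X : S.LOp := γ • 1 + Y with hX
  set C := γ + ‖Y‖ with hC
  have hCpos : 0 < C := by positivity
  set B : S.LOp := 1 - C⁻¹ • X with hBdef
  have hXmem : X ∈ calc' hB := add_mem (Submodule.smul_mem _ _ (one_mem_calc hB)) hY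
  have hBmem : B ∈ calc' hB := sub_mem (one_mem_calc hB) (Submodule.smul_mem _ _ hXmem)
  have hXs : adjoint X = X := by rw [hX, adj_add, adj_smul, adj_one, hYs]
  have hBs : adjoint B = B := by rw [hBdef, adj_sub, adj_one, adj_smul, hXs]
  have hform : ∀ v, ⟪v, B v⟫_ℝ = ‖v‖ ^ 2 - C⁻¹ * (γ * ‖v‖ ^ 2 + ⟪v, Y v⟫_ℝ) := fun v => by
    simp only [hBdef, hX, sub_apply, smul_apply, add_apply, one_apply_eq_self, inner_sub_right,
      inner_smul_right, inner_add_right, real_inner_self_eq_norm_sq]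
  have hYn : ∀ v, ⟪v, Y v⟫_ℝ ≤ ‖Y‖ * ‖v‖ ^ 2 := fun v =>
    (real_inner_le_norm _ _).trans (by nlinarith [Y.le_opNorm v, norm_nonneg v])
  have hlt : ‖B‖ < 1 := by
    refine lt_of_le_of_lt (norm_le_of_form (c := 1 - γ / C) ?_ hBs (fun v => ?_) fun v => ?_) ?_
    · rw [sub_nonneg, div_le_one hCpos, hC]; linarith [norm_nonneg Y]
    · rw [hform]
      have : C⁻¹ * (γ * ‖v‖ ^ 2 + ⟪v, Y v⟫_ℝ) ≤ C⁻¹ * (C * ‖v‖ ^ 2) := by
        refine mul_le_mul_of_nonneg_left ?_ (by positivity)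
        rw [hC]; linarith [hYn v]
      rw [← mul_assoc, inv_mul_cancel₀ hCpos.ne', one_mul] at this
      linarith
    · rw [hform, sub_mul, one_mul, div_eq_inv_mul, mul_assoc]
      have : 0 ≤ C⁻¹ * ⟪v, Y v⟫_ℝ := mul_nonneg (by positivity) (hY0 v)
      linarith
    · linarith [div_pos hγ hCpos]
  have hsum : Summable fun n => B ^ n := summable_geometric_of_norm_lt_one hlt
  set N : S.LOp := C⁻¹ • ∑' n, B ^ n with hN
  have hXB : X = C • (1 - B) := by
    rw [hBdef, sub_sub_cancel, smul_smul, mul_inv_cancel₀ hCpos.ne', one_smul]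
  have h1 : N * X = 1 := by
    rw [hN, hXB, smul_mul_smul_comm, inv_mul_cancel₀ hCpos.ne', one_smul,
      geom_series_mul_neg B hlt]
  have h2 : X * N = 1 := by
    rw [hN, hXB, smul_mul_smul_comm, mul_inv_cancel₀ hCpos.ne', one_smul,
      mul_neg_geom_series B hlt]
  have hpow : ∀ n, B ^ n ∈ calc' hB := fun n => by
    induction n with
    | zero => rw [pow_zero]; exact one_mem_calc hB
    | succ n ih => rw [pow_succ]; exact mul_mem_calc ih hBmem
  have hNmem : N ∈ calc' hB := by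
    refine Submodule.smul_mem _ _ ((calc_isClosed hB).mem_of_tendsto hsum.hasSum.tendsto_sum_nat
      (Eventually.of_forall fun k => sum_mem fun n _ => hpow n))
  have hNs : adjoint N = N := by
    calc adjoint N = adjoint N * (X * N) := by rw [h2, mul_one]
      _ = adjoint (X * N) * N := by rw [adj_mul, hXs, mul_assoc]
      _ = N := by rw [h2, adj_one, one_mul]
  have hcoer : ∀ w, γ * ‖w‖ ^ 2 ≤ ⟪w, X w⟫_ℝ := fun w => by
    simp only [hX, add_apply, smul_apply, one_apply_eq_self, inner_add_right, inner_smul_right,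
      real_inner_self_eq_norm_sq]
    linarith [hY0 w]
  have hNv : ∀ v, γ * ‖N v‖ ^ 2 ≤ ⟪v, N v⟫_ℝ := fun v => by
    have := hcoer (N v)
    rwa [← mul_apply_eq_comp, h2, one_apply_eq_self, real_inner_comm] at this
  refine ⟨N, hNmem, hNs, h1, h2, fun v => le_trans (by positivity) (hNv v), fun v => ?_⟩
  have h := (hNv v).trans (real_inner_le_norm _ _)
  rw [div_mul_eq_mul_div, one_mul, le_div_iff₀ hγ]
  have h3 : γ * ‖N v‖ ≤ ‖v‖ := by
    by_contra hcon
    rw [not_le] at hcon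
    nlinarith [norm_nonneg (N v), norm_nonneg v, mul_lt_mul_of_pos_right hcon
      (show 0 < ‖N v‖ by
        by_contra h0
        rw [not_lt] at h0
        nlinarith [norm_nonneg (N v), norm_nonneg v])]
  nlinarith [real_inner_le_norm v (N v), norm_nonneg v, norm_nonneg (N v)]

/-- The soft inverse is antitone. -/
lemma soft_antitone {γ : ℝ} (hγ : 0 < γ) {Y Y' N N' : S.LOp}
    (hY's : adjoint Y' = Y') (hY'0 : ∀ v, 0 ≤ ⟪v, Y' v⟫_ℝ)
    (hle : ∀ v, ⟪v, Y' v⟫_ℝ ≤ ⟪v, Y v⟫_ℝ)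
    (hN : (γ • 1 + Y) * N = 1) (hN' : (γ • 1 + Y') * N' = 1) (u : S.L2) :
    ⟪u, N u⟫_ℝ ≤ ⟪u, N' u⟫_ℝ := by
  set X : S.LOp := γ • 1 + Y
  set X' : S.LOp := γ • 1 + Y'
  have hXs : adjoint X' = X' := by simp only [X', adj_add, adj_smul, adj_one, hY's]
  have e1 : X (N u) = u := by rw [← mul_apply_eq_comp, hN, one_apply_eq_self]
  have e2 : X' (N' u) = u := by rw [← mul_apply_eq_comp, hN', one_apply_eq_self]
  have hsq : 0 ≤ ⟪N u - N' u, X' (N u - N' u)⟫_ℝ := by
    simp only [X', add_apply, smul_apply, one_apply_eq_self, inner_add_right, inner_smul_right,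
      real_inner_self_eq_norm_sq]
    exact add_nonneg (mul_nonneg hγ.le (sq_nonneg _)) (hY'0 _)
  have hmon : ⟪N u, X' (N u)⟫_ℝ ≤ ⟪N u, X (N u)⟫_ℝ := by
    simp only [X, X', add_apply, smul_apply, one_apply_eq_self, inner_add_right, inner_smul_right]
    linarith [hle (N u)]
  have hcross : ⟪N' u, X' (N u)⟫_ℝ = ⟪u, N u⟫_ℝ := by rw [← inner_symm' hXs, e2]
  rw [map_sub, e2, inner_sub_left, inner_sub_right, inner_sub_right, hcross] at hsq
  rw [e1] at hmon
  rw [real_inner_comm u (N' u), real_inner_comm u (N u)] at hsq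
  rw [real_inner_comm u (N u)] at hmon
  linarith

end Tracial

end Vale.Agent.P078.Tr
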