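import Vale.Agent.P078.Tr.Cov.Kernel

/-! Products of the maps `b ↦ E (z b z*)` are approximated by single sums of such maps. -/

open Filter Topology
open scoped ComplexOrder InnerProductSpace

noncomputable section

namespace Vale.Agent.P078.Tr

universe u

variable {H : Type u} [NormedAddCommGroup H] [InnerProductSpace ℂ H] [CompleteSpace H]
  {S : Tracial H}

attribute [local instance] InnerProductSpace.complexToReal

namespace Tracial

/-- A product of elementary maps. -/
def word (hB : Basics S) : List S.M → S.LOp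
  | [] => 1
  | z :: zs => S.elem hB z * word hB zs

lemma word_append (hB : Basics S) (l l' : List S.M) :
    word hB (l ++ l') = word hB l * word hB l' := by
  induction l with
  | nil => simp [word]
  | cons z l ih => simp [word, ih, mul_assoc]

/-- The transposed word. -/
def rev (l : List S.M) : List S.M := (l.map star).reverse

lemma adjoint_word (hB : Basics S) (l : List S.M) :
    ContinuousLinearMap.adjoint (word hB l) = word hB (rev l) := by
  induction l with
  | nil => exact ContinuousLinearMap.adjoint_id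
  | cons z l ih =>
    refine (ContinuousLinearMap.adjoint_comp (S.elem hB z) (word hB l)).trans ?_
    rw [rev, List.map_cons, List.reverse_cons, word_append]
    show (ContinuousLinearMap.adjoint (word hB l)).comp (ContinuousLinearMap.adjoint (S.elem hB z))
      = word hB (rev l) * (S.elem hB (star z) * (1 : S.LOp))
    rw [ih, adjoint_elem, mul_one]
    rfl

/-- The word with a pinching in place of every expectation. -/
def pinched (c : Part S) : List S.M → Op H → Op H
  | [], b => b
  | z :: zs, b => c.pinch ((z : Op H) * pinched c zs b * star (z : Op H))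

lemma pinched_mem (c : Part S) (zs : List S.M) {b : Op H} (hb : b ∈ S.M) :
    pinched c zs b ∈ S.M := by
  induction zs with
  | nil => exact hb
  | cons z zs ih => exact c.pinch_mem (mul_mem (mul_mem z.2 ih) (star_mem z.2))

lemma pinched_append (c : Part S) (l : List S.M) (x : S.M) (b : Op H) :
    pinched c (l ++ [x]) b = pinched c l (c.pinch ((x : Op H) * b * star (x : Op H))) := by
  induction l with
  | nil => rfl
  | cons z l ih => simp only [List.cons_append, pinched, ih]

lemma exists_raw (c : Part S) (zs : List S.M) :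
    ∃ (n : ℕ) (w : Fin n → S.M), ∀ b, pinched c zs b = raw w b := by
  induction zs with
  | nil => exact ⟨1, fun _ => 1, fun b => by simp [pinched, raw]⟩
  | cons z zs ih =>
    obtain ⟨n, w, hw⟩ := ih
    refine ⟨c.n * n, fun k => ⟨c.p (finProdFinEquiv.symm k).1 * (z : Op H) *
      (w (finProdFinEquiv.symm k).2 : Op H),
      mul_mem (mul_mem (c.mem_M _) z.2) (w _).2⟩, fun b => ?_⟩
    rw [pinched, hw, raw, raw, ← finProdFinEquiv.sum_comp, Fintype.sum_prod_type, Part.pinch]
    refine Finset.sum_congr rfl fun i _ => ?_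
    simp only [Finset.mul_sum, Finset.sum_mul, Equiv.symm_apply_apply]
    refine Finset.sum_congr rfl fun l _ => ?_
    simp only [star_mul, c.star_p, mul_assoc]

lemma tr_mul_pinched (c : Part S) (zs : List S.M) {Y a : Op H} (hY : Y ∈ S.M) (ha : a ∈ S.A) :
    S.tr (Y * pinched c zs a) = S.tr (pinched c (rev zs) (c.pinch Y) * a) := by
  induction zs generalizing Y with
  | nil =>
    show S.tr (Y * a) = S.tr (c.pinch Y * a)
    conv_lhs => rw [← c.pinch_self ha]
    rw [c.tr_mul_pinch hY (S.le _ ha), c.pinch_self ha]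
  | cons z zs ih =>
    have hX := pinched_mem c zs (S.le _ ha)
    have hzx := mul_mem (mul_mem z.2 hX) (star_mem z.2)
    have h1 : c.pinch Y * (z : Op H) ∈ S.M := mul_mem (c.pinch_mem hY) z.2
    calc S.tr (Y * pinched c (z :: zs) a)
        = S.tr (c.pinch Y * ((z : Op H) * pinched c zs a * star (z : Op H))) := by
          rw [pinched, c.tr_mul_pinch hY hzx, S.tr_comm (c.pinch_mem hY) (c.pinch_mem hzx),
            ← c.tr_mul_pinch hzx hY, S.tr_comm hzx (c.pinch_mem hY)]
      _ = S.tr (star (z : Op H) * c.pinch Y * (z : Op H) * pinched c zs a) := by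
          rw [show c.pinch Y * ((z : Op H) * pinched c zs a * star (z : Op H))
              = c.pinch Y * (z : Op H) * pinched c zs a * star (z : Op H) by simp only [mul_assoc],
            S.tr_comm (mul_mem h1 hX) (star_mem z.2)]
          simp only [mul_assoc]
      _ = S.tr (pinched c (rev zs) (c.pinch (star (z : Op H) * c.pinch Y * (z : Op H))) * a) :=
          ih (mul_mem (mul_mem (star_mem z.2) (c.pinch_mem hY)) z.2)
      _ = _ := by
          rw [rev, rev, List.map_cons, List.reverse_cons, pinched_append]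
          show _ = S.tr (pinched c _ (c.pinch (star (z : Op H) * c.pinch Y *
            star (star (z : Op H)))) * a)
          rw [star_star]

/-- Pinched expectations are close to expectations. -/
lemma norm_E_sub_elem_le (hB : Basics S) (z : S.M) {X : Op H} (hX : X ∈ S.M) (v : S.L2) :
    ‖S.avec (S.E ((z : Op H) * X * star (z : Op H))) - (S.elem hB z v : Big H)‖
      ≤ ‖(z : Op H)‖ ^ 2 * ‖S.avec X - (v : Big H)‖ := by
  induction v using S.denseRange_emb.induction_on with
  | hp => exact isClosed_le (by fun_prop) (by fun_prop)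
  | ih a =>
    have ha := S.le _ a.2.1
    rw [coe_elem_emb, coe_emb, ← map_sub, ← map_sub]
    have e : S.E ((z : Op H) * X * star (z : Op H)) - S.E ((z : Op H) * a * star (z : Op H))
        = S.E ((z : Op H) * (X - a) * star (z : Op H)) := by
      have h1 := hB.E_add _ (mul_mem (mul_mem z.2 (sub_mem hX ha)) (star_mem z.2)) _
        (mul_mem (mul_mem z.2 ha) (star_mem z.2))
      rw [← add_mul, ← mul_add, sub_add_cancel] at h1
      rw [h1, add_sub_cancel_right]
    rw [e]
    exact (norm_E_le hB (mul_mem (mul_mem z.2 (sub_mem hX ha)) (star_mem z.2))).trans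
      (norm_avec_conj_le z.2 (sub_mem hX ha))

lemma norm_E_sub_le (hB : Basics S) {X : Op H} (hX : X ∈ S.M) (v : S.L2) :
    ‖S.avec (S.E X) - (v : Big H)‖ ≤ ‖S.avec X - (v : Big H)‖ := by
  induction v using S.denseRange_emb.induction_on with
  | hp => exact isClosed_le (by fun_prop) (by fun_prop)
  | ih a =>
    have ha := S.le _ a.2.1
    rw [coe_emb, ← map_sub, ← map_sub]
    have e : S.E X - (a : Op H) = S.E (X - a) := by
      have h1 := hB.E_add _ (sub_mem hX ha) _ ha
      rw [sub_add_cancel, hB.E_self _ a.2.1] at h1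
      rw [h1, add_sub_cancel_right]
    rw [e]
    exact norm_E_le hB (sub_mem hX ha)

/-- Sums of four squares of distances. -/
lemma norm_sq_three_le {F : Type*} [SeminormedAddCommGroup F] {x y w v : F} {A B C : ℝ}
    (h1 : ‖x‖ ^ 2 ≤ A) (h2 : ‖y‖ ^ 2 ≤ B) (h3 : ‖w‖ ^ 2 ≤ C) (h : v = x + y + w) :
    ‖v‖ ^ 2 ≤ 3 * (A + B + C) := by
  have := (norm_add₃_le (a := x) (b := y) (c := w))
  rw [← h] at this
  nlinarith [norm_nonneg v, norm_nonneg x, norm_nonneg y, norm_nonneg w, sq_nonneg (‖x‖ - ‖y‖),
    sq_nonneg (‖x‖ - ‖w‖), sq_nonneg (‖y‖ - ‖w‖)]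

/-- The main estimate: a word is the limit of its pinched versions, uniformly on fine cells. -/
lemma eventually_pinched (hB : Basics S) (zs : List S.M) :
    ∀ η > (0 : ℝ), ∀ᶠ c in fine S, ∀ᶠ b in fine S,
      ∑ j, ‖S.avec (pinched c zs (b.p j)) - (word hB zs (cell b j) : Big H)‖ ^ 2 ≤ η := by
  induction zs with
  | nil =>
    intro η hη
    refine Eventually.of_forall fun c => Eventually.of_forall fun b => ?_
    have h0 : ∀ j, S.avec (pinched c [] (b.p j)) - (word hB [] (cell b j) : Big H) = 0 :=
      fun j => sub_self _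
    simp [h0, hη.le]
  | cons z zs ih =>
    intro η hη
    set C := ‖(z : Op H)‖ ^ 2 with hC
    set θ := η / (3 * (5 * C ^ 2 + 1)) with hθ
    have hθ0 : 0 < θ := by positivity
    obtain ⟨c₀, hc₀⟩ := (ih θ hθ0).exists
    obtain ⟨n, w, hw⟩ := exists_raw c₀ zs
    let w' : Fin n → S.M := fun l => z * w l
    have hw' : ∀ b, (z : Op H) * pinched c₀ zs b * star (z : Op H) = raw w' b := fun b => by
      rw [hw, raw, raw, Finset.mul_sum, Finset.sum_mul]
      refine Finset.sum_congr rfl fun l _ => ?_
      show _ = ((z : Op H) * (w l : Op H)) * b * star ((z : Op H) * (w l : Op H))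
      simp only [star_mul, mul_assoc]
    filter_upwards [ih θ hθ0, eventually_pinch_raw w' hB hθ0] with c hc hc'
    filter_upwards [hc₀, hc, hc'] with b h₀ h₁ h₂
    refine (Finset.sum_le_sum fun j _ => norm_sq_three_le
      (A := C ^ 2 * (2 * (‖S.avec (pinched c zs (b.p j)) - (word hB zs (cell b j) : Big H)‖ ^ 2
        + ‖S.avec (pinched c₀ zs (b.p j)) - (word hB zs (cell b j) : Big H)‖ ^ 2)))
      (B := ‖S.avec (c.pinch (raw w' (b.p j))) - S.avec (S.E (raw w' (b.p j)))‖ ^ 2)
      (C := C ^ 2 * ‖S.avec (pinched c₀ zs (b.p j)) - (word hB zs (cell b j) : Big H)‖ ^ 2)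
      (x := S.avec (c.pinch ((z : Op H) * (pinched c zs (b.p j) - pinched c₀ zs (b.p j)) *
        star (z : Op H))))
      (y := S.avec (c.pinch (raw w' (b.p j))) - S.avec (S.E (raw w' (b.p j))))
      (w := S.avec (S.E ((z : Op H) * pinched c₀ zs (b.p j) * star (z : Op H)))
        - (S.elem hB z (word hB zs (cell b j)) : Big H))
      ?_ le_rfl ?_ ?_).trans ?_
    · have hm := sub_mem (pinched_mem c zs (b.mem_M j)) (pinched_mem c₀ zs (b.mem_M j))
      have h1 := (c.norm_avec_pinch_le (mul_mem (mul_mem z.2 hm) (star_mem z.2))).trans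
        (norm_avec_conj_le z.2 hm)
      refine (pow_le_pow_left₀ (norm_nonneg _) h1 2).trans ?_
      rw [mul_pow, map_sub]
      refine mul_le_mul_of_nonneg_left ?_ (sq_nonneg _)
      set a := S.avec (pinched c zs (b.p j)) - (word hB zs (cell b j) : Big H)
      set a' := S.avec (pinched c₀ zs (b.p j)) - (word hB zs (cell b j) : Big H)
      rw [show S.avec (pinched c zs (b.p j)) - S.avec (pinched c₀ zs (b.p j)) = a - a' by
        simp only [a, a']; abel]
      nlinarith [norm_sub_le a a', norm_nonneg (a - a'), sq_nonneg (‖a‖ - ‖a'‖)]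
    · rw [← mul_pow]
      exact pow_le_pow_left₀ (norm_nonneg _)
        (norm_E_sub_elem_le hB z (pinched_mem c₀ zs (b.mem_M j)) _) 2
    · rw [hw', pinched, word, mul_apply_eq_comp, mul_sub, sub_mul, hw',
        show c.pinch ((z : Op H) * pinched c zs (b.p j) * star (z : Op H) - raw w' (b.p j))
          = c.pinch ((z : Op H) * pinched c zs (b.p j) * star (z : Op H))
            - c.pinch (raw w' (b.p j)) from map_sub c.pinchₗ _ _, map_sub]
      abel
    · simp only [← Finset.mul_sum, Finset.sum_add_distrib]
      calc 3 * (C ^ 2 * (2 * (_ + _)) + _ + C ^ 2 * _)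
          ≤ 3 * (C ^ 2 * (2 * (θ + θ)) + θ + C ^ 2 * θ) := by gcongr
        _ = η := by rw [hθ]; field_simp; ring

/-- The word, compared with a single sum, in both directions. -/
lemma exists_pos_approx (hB : Basics S) (zs : List S.M) {η : ℝ} (hη : 0 < η) :
    ∃ (n : ℕ) (w : Fin n → S.M),
      (∀ᶠ b in fine S, sq (word hB zs - pos w hB) b ≤ η) ∧
      ∀ᶠ b in fine S, sq (word hB (rev zs) - pos (fun l => star (w l)) hB) b ≤ η := by
  obtain ⟨c, hc, hc'⟩ := ((eventually_pinched hB zs η hη).and
    (eventually_pinched hB (rev zs) η hη)).exists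
  obtain ⟨n, w, hw⟩ := exists_raw c zs
  refine ⟨n, w, ?_, ?_⟩
  · filter_upwards [hc] with b hb
    refine le_trans (Finset.sum_le_sum fun j _ => ?_) hb
    refine pow_le_pow_left₀ (norm_nonneg _) ?_ 2
    show ‖((word hB zs (cell b j) - pos w hB (cell b j) : S.L2) : Big H)‖ ≤ _
    rw [coe_sub, coe_pos_cell, ← hw, norm_sub_rev]
    exact norm_E_sub_le hB (pinched_mem c zs (b.mem_M j)) _
  · -- the transposed sum has the transposed values
    have htr : ∀ a ∈ S.A, IsSelfAdjoint a →
        S.E (raw (fun l => star (w l)) a) = S.E (pinched c (rev zs) a) := by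
      intro a ha has
      have h1 := raw_mem (fun l => star (w l)) (S.le _ ha)
      have h2 := pinched_mem c (rev zs) (S.le _ ha)
      have hsa : ∀ {n : ℕ} (v : Fin n → S.M), IsSelfAdjoint (raw v a) := fun v =>
        isSelfAdjoint_sum _ fun l _ => has.conjugate _
      obtain ⟨m, v, hv⟩ := exists_raw c (rev zs)
      rw [hv]
      have hA1 := hB.E_mem _ h1
      have hA2 := hB.E_mem _ (raw_mem v (S.le _ ha))
      have hd : ∀ b ∈ S.A, IsSelfAdjoint b →
          S.tr (b * S.E (raw (fun l => star (w l)) a)) = S.tr (b * S.E (raw v a)) := by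
        intro b hb _
        rw [tr_mul_E hB h1 hb, tr_mul_E hB (raw_mem v (S.le _ ha)) hb, ← hv,
          S.tr_comm (S.le _ hb) h2]
        have h3 := tr_mul_pinched c zs (S.le _ ha) hb
        rw [c.pinch_self ha, hw] at h3
        rw [← h3, raw, raw, Finset.mul_sum, Finset.mul_sum, S.tr_sum, S.tr_sum]
        refine Finset.sum_congr rfl fun l _ => ?_
        show S.tr (b * (star (w l : Op H) * a * star (star (w l : Op H)))) = _
        rw [star_star,
          show b * (star (w l : Op H) * a * (w l : Op H))
            = b * star (w l : Op H) * (a * (w l : Op H)) by simp only [mul_assoc],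
          S.tr_comm (mul_mem (S.le _ hb) (star_mem (w l).2)) (mul_mem (S.le _ ha) (w l).2)]
        simp only [mul_assoc]
      set D := S.E (raw (fun l => star (w l)) a) - S.E (raw v a) with hD
      have hDs : IsSelfAdjoint D :=
        (E_isSelfAdjoint hB h1 (hsa _)).sub (E_isSelfAdjoint hB (raw_mem v (S.le _ ha)) (hsa v))
      have h0 : S.tr (star D * D) = 0 := by
        rw [hDs.star_eq]
        nth_rw 2 [hD]
        rw [mul_sub, S.tr_sub, hd D (sub_mem hA1 hA2) hDs, sub_self]
      exact sub_eq_zero.1 (S.eq_zero_of_sq_eq_zero (S.le _ (sub_mem hA1 hA2)) h0)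
    filter_upwards [hc'] with b hb
    refine le_trans (Finset.sum_le_sum fun j _ => ?_) hb
    refine pow_le_pow_left₀ (norm_nonneg _) ?_ 2
    show ‖((word hB (rev zs) (cell b j) - pos (fun l => star (w l)) hB (cell b j) : S.L2) : Big H)‖
      ≤ _
    rw [coe_sub, coe_pos_cell, htr _ (b.mem j) (b.proj j).isSelfAdjoint, norm_sub_rev]
    exact norm_E_sub_le hB (pinched_mem c (rev zs) (b.mem_M j)) _

end Tracial

end Vale.Agent.P078.Tr
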